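import Vale.Agent.P022.H567.Cft

/-!
P022, block [POW] (helper967): elements close to `1` are `n`-th powers in the completion.
Simplified Newton iteration `y ↦ y - (y ^ n - a) / n`.
-/

open NumberField IsDedekindDomain Finset Filter Topology

namespace Vale.Agent.P022.H967

section contraction

variable {F : Type*} [Field F] {Γ : Type*} [LinearOrderedCommGroupWithZero Γ] (V : Valuation F Γ)

/-- a product of elements close to `1` is close to `1` -/
lemma close_pow {r : Γ} (hr : r ≤ 1) {y : F} (hy : V (y - 1) ≤ r) (i : ℕ) :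
    V (y ^ i - 1) ≤ r := by
  have hy1 : V y ≤ 1 := by
    have : y = (y - 1) + 1 := by ring
    rw [this]
    exact (V.map_add _ _).trans (max_le (hy.trans hr) (by rw [map_one]))
  induction i with
  | zero => simp
  | succ i ih =>
    have : y ^ (i + 1) - 1 = y * (y ^ i - 1) + (y - 1) := by ring
    rw [this]
    refine (V.map_add _ _).trans (max_le ?_ hy)
    rw [map_mul]
    exact (mul_le_mul' hy1 ih).trans (by rw [one_mul])

lemma close_mul {r : Γ} (hr : r ≤ 1) {y w : F} (hy : V (y - 1) ≤ r) (hw : V (w - 1) ≤ r) :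
    V (y * w - 1) ≤ r := by
  have hy1 : V y ≤ 1 := by
    have : y = (y - 1) + 1 := by ring
    rw [this]
    exact (V.map_add _ _).trans (max_le (hy.trans hr) (by rw [map_one]))
  have : y * w - 1 = y * (w - 1) + (y - 1) := by ring
  rw [this]
  refine (V.map_add _ _).trans (max_le ?_ hy)
  rw [map_mul]
  exact (mul_le_mul' hy1 hw).trans (by rw [one_mul])

/-- the Newton map is a contraction -/
lemma newton_lip {n : ℕ} {a : F} {r : Γ} (hr : r ≤ 1) (hn : (n : F) ≠ 0) {y w : F}
    (hy : V (y - 1) ≤ r) (hw : V (w - 1) ≤ r) :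
    V ((y - (y ^ n - a) / n) - (w - (w ^ n - a) / n)) ≤ V (y - w) * (r / V n) := by
  have e : (y - (y ^ n - a) / n) - (w - (w ^ n - a) / n) =
      -((y - w) * ((∑ i ∈ range n, (y ^ i * w ^ (n - 1 - i) - 1)) / n)) := by
    rw [Finset.sum_sub_distrib, Finset.sum_const, card_range, nsmul_eq_mul, mul_one]
    have h1 := (Commute.all y w).geom_sum₂_mul n
    field_simp
    linear_combination h1
  rw [e, Valuation.map_neg, map_mul, map_div₀]
  refine mul_le_mul' le_rfl ?_
  refine div_le_div_of_nonneg_right ?_ zero_le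
  refine V.map_sum_le fun i _ => close_mul V hr (close_pow V hr hy _) (close_pow V hr hw _)

end contraction

lemma val_nat_le {F : Type*} [Field F] {Γ : Type*} [LinearOrderedCommGroupWithZero Γ]
    (V : Valuation F Γ) (n : ℕ) : V (n : F) ≤ 1 := by
  induction n with
  | zero => simp
  | succ k ih =>
    push_cast
    exact (V.map_add _ _).trans (max_le ih (by rw [map_one]))

/-- Newton iteration for `y ^ n = a` in a complete field -/
theorem newton {F : Type*} [Field F] {Γ : Type*} [LinearOrderedCommGroupWithZero Γ]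
    [MulArchimedean Γ] [Valued F Γ] [CompleteSpace F] {n : ℕ} (hn : (n : F) ≠ 0) {a : F}
    (ha : Valued.v (a - 1) < Valued.v ((n : F) ^ 2)) : ∃ y : F, y ^ n = a := by
  set V : Valuation F Γ := Valued.v with hV
  have hn0 : V (n : F) ≠ 0 := (Valuation.ne_zero_iff _).2 hn
  have hnle : V (n : F) ≤ 1 := val_nat_le V n
  set q : F := (a - 1) / (n : F) ^ 2 with hq
  have hq1 : V q < 1 := by
    rw [hq, map_div₀]
    exact (div_lt_one₀ (zero_lt_iff.2 (by rw [map_pow]; exact pow_ne_zero _ hn0))).2 ha
  set t : F := (a - 1) / (n : F) with ht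
  have htq : t = q * n := by rw [ht, hq]; field_simp
  have htr : V t ≤ 1 := by
    rw [htq, map_mul]
    exact (mul_le_mul' hq1.le hnle).trans (by rw [one_mul])
  have htn : V t / V n = V q := by
    rw [htq, map_mul, mul_div_assoc, div_self hn0, mul_one]
  set S : F → F := fun y => y - (y ^ n - a) / n with hS
  have hS1 : V (S 1 - 1) ≤ V t := by
    have : S 1 - 1 = t := by rw [hS, ht]; simp only [one_pow]; ring
    rw [this]
  have hlip : ∀ y w, V (y - 1) ≤ V t → V (w - 1) ≤ V t → V (S y - S w) ≤ V (y - w) * V q := by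
    intro y w hy hw
    rw [← htn]
    exact newton_lip V htr hn hy hw
  have hmaps : ∀ y, V (y - 1) ≤ V t → V (S y - 1) ≤ V t := by
    intro y hy
    have e : S y - 1 = (S y - S 1) + (S 1 - 1) := by ring
    rw [e]
    refine (V.map_add _ _).trans (max_le ?_ hS1)
    refine (hlip y 1 hy (by simp)).trans ?_
    exact (mul_le_mul' hy hq1.le).trans (by rw [mul_one])
  set f : ℕ → F := fun k => S^[k] 1 with hf
  have hfs : ∀ k, f (k + 1) = S (f k) := fun k => Function.iterate_succ_apply' _ _ _
  have hf1 : ∀ k, V (f k - 1) ≤ V t := by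
    intro k
    induction k with
    | zero => simp [hf]
    | succ k ih => rw [hfs]; exact hmaps _ ih
  have hd : ∀ k, V (f (k + 1) - f k) ≤ V (t * q ^ k) := by
    intro k
    induction k with
    | zero =>
      rw [hfs, pow_zero, mul_one]
      exact hS1
    | succ k ih =>
      rw [hfs (k + 1), hfs k]
      refine (hlip _ _ (by rw [← hfs]; exact hf1 _) (hf1 _)).trans ?_
      rw [← hfs, pow_succ, ← mul_assoc, map_mul V _ q]
      exact mul_le_mul' ih le_rfl
  have hz : Tendsto (fun k => t * q ^ k) atTop (𝓝 0) := by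
    have := (Valued.tendsto_zero_pow_of_v_lt_one hq1).const_mul t
    rwa [mul_zero] at this
  have hdz : Tendsto (fun k => f (k + 1) - f k) atTop (𝓝 0) := by
    rw [(Valued.hasBasis_nhds_zero _ _).tendsto_right_iff] at hz ⊢
    intro γ hγ
    filter_upwards [hz γ hγ] with k hk
    have h1 := hd k
    exact lt_of_le_of_lt ((Valuation.restrict_le_iff _).2 h1) hk
  have : NonarchimedeanAddGroup F := ⟨fun U hU => by
    obtain ⟨γ, -, hγ⟩ := (Valued.hasBasis_nhds_zero F Γ).mem_iff.1 hU
    refine ⟨⟨Valuation.ltAddSubgroup (Valuation.restrict Valued.v) γ, ?_⟩, hγ⟩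
    exact AddSubgroup.isOpen_of_mem_nhds _ (g := 0)
      ((Valued.hasBasis_nhds_zero F Γ).mem_iff.2 ⟨γ, trivial, fun x hx => hx⟩)⟩
  obtain ⟨y, hy⟩ := cauchySeq_tendsto_of_complete
    (NonarchimedeanAddGroup.cauchySeq_of_tendsto_sub_nhds_zero hdz)
  refine ⟨y, ?_⟩
  have hcont : Continuous S := by
    rw [hS]; fun_prop
  have h1 : Tendsto (fun k => f (k + 1)) atTop (𝓝 y) := (tendsto_add_atTop_iff_nat 1).2 hy
  have h2 : Tendsto (fun k => f (k + 1)) atTop (𝓝 (S y)) := by
    have := (hcont.tendsto y).comp hy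
    refine this.congr fun k => ?_
    rw [Function.comp_apply, hfs]
  have h3 : S y = y := tendsto_nhds_unique h2 h1
  rw [hS] at h3
  simp only [sub_eq_self, div_eq_zero_iff, hn, or_false] at h3
  exact sub_eq_zero.1 h3

/-- **[POW]** -/
theorem POW : C.POWStmt := by
  intro K _ _ v n hn a ha
  have hnK : (n : K) ≠ 0 := by exact_mod_cast hn.ne'
  have e : ∀ x : K, Valued.v (algebraMap K (v.adicCompletion K) x) = v.valuation K x := fun x =>
    HeightOneSpectrum.valuedAdicCompletion_eq_valuation' v x
  have hn' : ((n : ℕ) : v.adicCompletion K) ≠ 0 := by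
    intro h
    have h1 := e (n : K)
    rw [map_natCast, h, map_zero] at h1
    exact (Valuation.ne_zero_iff _).2 hnK h1.symm
  refine newton hn' ?_
  have h1 := e (a - 1)
  have h2 := e ((n : K) ^ 2)
  rw [map_sub, map_one] at h1
  rw [map_pow, map_natCast] at h2
  rw [h1, h2]
  exact ha

end Vale.Agent.P022.H967
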