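import Vale.Agent.P022.H967.NS3
import Vale.Agent.P022.H790.A3u
import Vale.Agent.P022.H583.Mod

/-!
# Cogeneration and commutant for the two Hecke operators, no hypothesis
-/

namespace Vale.Agent.P022.H967.NS

open Polynomial Vale.Agent.P022.H30

theorem famA : Fam H790.A.u3 H790.A.u5 :=
  fam H790.A.u3_rec (by rw [H790.A.u3]) (by rw [H790.A.u3]) (by rw [H790.A.u3])
    (by rw [H790.A.u3]) H790.A.u5_rec (by rw [H790.A.u5]) (by rw [H790.A.u5])
    (by rw [H790.A.u5]) (by rw [H790.A.u5]) (by rw [H790.A.u5]) (by rw [H790.A.u5])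

theorem hu3 (n : ℕ) : ev (H790.A.u3 n) = hec 3 (D ^ n) := H790.A.ev_u3 H583.L3 n

theorem hu5 (n : ℕ) : ev (H790.A.u5 n) = hec 5 (D ^ n) := H790.A.ev_u5 H583.L5 n

/-- **(NSa)**, no hypothesis. -/
theorem nsA {S T : Module.End (ZMod 2) Modd}
    (hS : ∀ f, ((S f : Modd) : PowerSeries (ZMod 2)) = hecL 3 (f : PowerSeries (ZMod 2)))
    (hT : ∀ f, ((T f : Modd) : PowerSeries (ZMod 2)) = hecL 5 (f : PowerSeries (ZMod 2)))
    (f : Modd) (h : ∀ i j, a1 ((S ^ i * T ^ j) f) = 0) : f = 0 :=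
  ha_Modd hu3 hu5 hS hT famA f h

/-- **(NSb)**, no hypothesis. -/
theorem nsB {S T : Module.End (ZMod 2) Modd}
    (hS : ∀ f, ((S f : Modd) : PowerSeries (ZMod 2)) = hecL 3 (f : PowerSeries (ZMod 2)))
    (hT : ∀ f, ((T f : Modd) : PowerSeries (ZMod 2)) = hecL 5 (f : PowerSeries (ZMod 2)))
    {U : Module.End (ZMod 2) Modd} (hUS : Commute U S) (hUT : Commute U T) :
    ∃ c : ℕ → ℕ → ZMod 2, ∀ f N, Nil S T f N →
      U f = ∑ i ∈ Finset.range N, ∑ j ∈ Finset.range N, c i j • (S ^ i * T ^ j) f :=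
  commutant_Modd hu3 hu5 hS hT famA hUS hUT

end Vale.Agent.P022.H967.NS
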