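import Vale.Agent.P022.H967.Ord

/-!
P022, block [E] (helper967): **a cyclic cyclotomic character in which finitely many given numbers
have large order.**
-/

set_option linter.all false

namespace Vale.Agent.P022.H967

open Finset

section grp

variable {G : Type} [CommGroup G] {ℓ : ℕ}

lemma ord_mul (hℓ : ℓ.Prime) {x y : G} {i j : ℕ} (hx : orderOf x = ℓ ^ i) (hy : orderOf y = ℓ ^ j)
    (h : i < j) : orderOf (x * y) = ℓ ^ j := by
  rw [← hy]
  refine (Commute.all x y).orderOf_mul_eq_right_of_forall_prime_mul_dvd ?_ ?_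
  · rw [← orderOf_pos_iff, hy]; exact Nat.pow_pos hℓ.pos
  · intro p hp hpd
    rw [hx] at hpd ⊢
    have : p = ℓ := (Nat.prime_dvd_prime_iff_eq hp hℓ).1 (hp.dvd_of_dvd_pow hpd)
    rw [this, hy, ← pow_succ']
    exact pow_dvd_pow _ h

lemma ord_max (hℓ : ℓ.Prime) {x y : G} {i j : ℕ} (hx : orderOf x = ℓ ^ i) (hy : orderOf y = ℓ ^ j)
    (h : i ≠ j) : orderOf (x * y) = ℓ ^ (max i j) := by
  rcases lt_or_gt_of_ne h with h | h
  · rw [max_eq_right h.le]; exact ord_mul hℓ hx hy h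
  · rw [max_eq_left h.le, mul_comm]; exact ord_mul hℓ hy hx h

lemma ord_pow (hℓ : ℓ.Prime) {y : G} {j : ℕ} (hy : orderOf y = ℓ ^ j) (s : ℕ) :
    orderOf (y ^ ℓ ^ s) = ℓ ^ (j - s) := by
  rw [orderOf_pow' _ (pow_ne_zero _ hℓ.ne_zero), hy]
  rcases le_total s j with h | h
  · rw [Nat.gcd_eq_right (pow_dvd_pow ℓ h), Nat.pow_div h hℓ.pos]
  · rw [Nat.gcd_eq_left (pow_dvd_pow ℓ h), Nat.sub_eq_zero_of_le h, pow_zero,
      Nat.div_self (Nat.pow_pos hℓ.pos)]

/-- for all `s` but one the product has large order -/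
lemma ord_good (hℓ : ℓ.Prime) {x y : G} {i j a s : ℕ} (hx : orderOf x = ℓ ^ i)
    (hy : orderOf y = ℓ ^ j) (h : a + 1 ≤ i ∨ a + 1 ≤ j - s)
    (hb : ¬ ℓ ^ (a + 1) ∣ orderOf (x * y ^ ℓ ^ s)) : j = i + s := by
  by_contra hne
  apply hb
  have h1 : i ≠ j - s := by
    intro h1
    rcases h with h | h <;> omega
  rw [ord_max hℓ hx (ord_pow hℓ hy s) h1]
  exact pow_dvd_pow _ (by rcases h with h | h <;> omega)

end grp

/-- a character of the units modulo a prime -/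
lemma exists_chi {ℓ : ℕ} (hℓ : ℓ.Prime) {q : ℕ} (hq : q.Prime) {p A : ℕ} (hA : 1 ≤ A)
    (ho : orderOf (p : ZMod q) = ℓ ^ A) : ∃ (φ : (ZMod q)ˣ →* ℂˣ) (B : ℕ),
      (∀ u, φ u ^ ℓ ^ B = 1) ∧ ∀ u : (ZMod q)ˣ, (u : ZMod q) = p → orderOf (φ u) = ℓ ^ A := by
  haveI : Fact q.Prime := ⟨hq⟩
  haveI : NeZero q := ⟨hq.ne_zero⟩
  have hp0 : (p : ZMod q) ≠ 0 := by
    intro h
    rw [h] at ho
    have h1 : orderOf (0 : ZMod q) = 0 := orderOf_eq_zero (by
      rw [isOfFinOrder_iff_pow_eq_one]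
      rintro ⟨n, hn, hn'⟩
      rw [zero_pow (by omega)] at hn'
      exact zero_ne_one hn')
    rw [h1] at ho
    exact absurd ho.symm (Nat.pow_pos hℓ.pos).ne'
  set u₀ : (ZMod q)ˣ := Units.mk0 _ hp0 with hu₀
  have hu : orderOf u₀ = ℓ ^ A := by
    rw [← orderOf_units, hu₀, Units.val_mk0]; exact ho
  have hne : u₀ ^ ℓ ^ (A - 1) ≠ 1 := by
    intro h
    have h1 := orderOf_dvd_of_pow_eq_one h
    rw [hu, Nat.pow_dvd_pow_iff_le_right hℓ.one_lt] at h1
    omega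
  obtain ⟨φ, hφ⟩ := CommGroup.exists_apply_ne_one_of_hasEnoughRootsOfUnity (ZMod q)ˣ ℂ hne
  -- the part prime to `ℓ`
  set n := Fintype.card (ZMod q)ˣ with hn
  have hn0 : n ≠ 0 := Fintype.card_ne_zero
  obtain ⟨B, r, hr, hnr⟩ := Nat.exists_eq_pow_mul_and_not_dvd hn0 ℓ hℓ.ne_one
  refine ⟨φ ^ r, B, fun u => ?_, fun u hu' => ?_⟩
  · rw [MonoidHom.pow_apply, ← pow_mul, mul_comm, ← hnr, ← map_pow, pow_card_eq_one, map_one]
  · have e : u = u₀ := by ext; rw [hu', hu₀, Units.val_mk0]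
    rw [e, MonoidHom.pow_apply]
    have h1 : orderOf (φ u₀) = ℓ ^ A := by
      haveI : Fact ℓ.Prime := ⟨hℓ⟩
      obtain ⟨A', rfl⟩ : ∃ A', A = A' + 1 := ⟨A - 1, by omega⟩
      refine orderOf_eq_prime_pow ?_ ?_
      · rw [← map_pow]; simpa using hφ
      · rw [← map_pow, ← hu, pow_orderOf_eq_one, map_one]
    have hc : (orderOf (φ u₀)).Coprime r := by
      rw [h1]
      exact Nat.Coprime.pow_left _ ((Nat.Prime.coprime_iff_not_dvd hℓ).2 hr)
    rw [hc.orderOf_pow, h1]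

/-- induction over the given numbers -/
lemma exists_psi_aux (ℓ : ℕ) (hℓ : ℓ.Prime) (a : ℕ) (N : ℕ) (hN : N ≠ 0) (P : Finset ℕ)
    (hP : ∀ p ∈ P, 2 ≤ p ∧ p ∣ N) : ∃ (m B : ℕ) (ψ : (ZMod m)ˣ →* ℂˣ), 0 < m ∧ m.Coprime N ∧
      (∀ u, ψ u ^ ℓ ^ B = 1) ∧ ψ (-1) = 1 ∧
      ∀ p ∈ P, ∀ u : (ZMod m)ˣ, (u : ZMod m) = p → ℓ ^ (a + 1) ∣ orderOf (ψ u) := by
  classical
  induction P using Finset.induction_on with
  | empty => exact ⟨1, 0, 1, one_pos, Nat.coprime_one_left N, fun u => by simp, by simp,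
      fun p hp => absurd hp (Finset.notMem_empty p)⟩
  | insert p P hpP ih =>
    obtain ⟨m, B, ψ, hm, hmN, hψB, hψ1, hψ⟩ := ih fun p' hp' => hP p' (mem_insert_of_mem hp')
    obtain ⟨hp2, hpN⟩ := hP p (mem_insert_self p P)
    set A := N * m + a + #P + 5 with hA
    obtain ⟨q, hq, hqo⟩ := exists_order hℓ hp2 (A := A) (by omega)
    haveI : Fact q.Prime := ⟨hq⟩
    haveI : NeZero m := ⟨hm.ne'⟩
    -- `q` is large
    have hqA : ℓ ^ A < q := by
      have h1 : orderOf (p : ZMod q) ∣ q - 1 := by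
        apply orderOf_dvd_of_pow_eq_one
        apply ZMod.pow_card_sub_one_eq_one
        intro h
        rw [h] at hqo
        have h1 : orderOf (0 : ZMod q) = 0 := orderOf_eq_zero (by
          rw [isOfFinOrder_iff_pow_eq_one]
          rintro ⟨n, hn, hn'⟩
          rw [zero_pow (by omega)] at hn'
          exact zero_ne_one hn')
        rw [h1] at hqo
        exact absurd hqo.symm (Nat.pow_pos hℓ.pos).ne'
      rw [hqo] at h1
      have h2 := Nat.le_of_dvd (by have := hq.two_le; omega) h1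
      have := hq.two_le
      omega
    have hAlt : A < ℓ ^ A := Nat.lt_pow_self hℓ.one_lt
    have hqNm : (N * m).Coprime q := by
      rw [Nat.coprime_comm, Nat.Prime.coprime_iff_not_dvd hq]
      intro h
      have h1 := Nat.le_of_dvd (Nat.mul_pos (Nat.pos_of_ne_zero hN) hm) h
      omega
    have hqN : q.Coprime N := (Nat.Coprime.coprime_mul_right hqNm).symm
    obtain ⟨φ, B', hφB, hφ⟩ := exists_chi hℓ hq (by omega) hqo
    set U₁ : (ZMod (m * q))ˣ →* (ZMod m)ˣ := ZMod.unitsMap (Dvd.intro _ rfl) with hU₁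
    set U₂ : (ZMod (m * q))ˣ →* (ZMod q)ˣ := ZMod.unitsMap (Dvd.intro_left _ rfl) with hU₂
    have e1 : ∀ (u : (ZMod (m * q))ˣ) (n : ℕ), (u : ZMod (m * q)) = n →
        ((U₁ u : (ZMod m)ˣ) : ZMod m) = n := by
      intro u n h
      rw [hU₁, ZMod.unitsMap_val, h, ZMod.cast_natCast (Dvd.intro _ rfl)]
    have e2 : ∀ (u : (ZMod (m * q))ˣ) (n : ℕ), (u : ZMod (m * q)) = n →
        ((U₂ u : (ZMod q)ˣ) : ZMod q) = n := by
      intro u n h
      rw [hU₂, ZMod.unitsMap_val, h, ZMod.cast_natCast (Dvd.intro_left _ rfl)]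
    set Ψ : ℕ → ((ZMod (m * q))ˣ →* ℂˣ) := fun s => (ψ.comp U₁) * (φ.comp U₂) ^ ℓ ^ s with hΨ
    have hΨa : ∀ s u, Ψ s u = ψ (U₁ u) * φ (U₂ u) ^ ℓ ^ s := fun s u => rfl
    -- the good exponent
    have hs : ∃ s ∈ Icc 1 (#P + 2), ∀ p' ∈ insert p P, ∀ u : (ZMod (m * q))ˣ,
        (u : ZMod (m * q)) = p' → ℓ ^ (a + 1) ∣ orderOf (Ψ s u) := by
      by_contra hcon
      push Not at hcon
      choose! f hf g hg hgb using hcon
      have hlt : #(insert p P) < #(Icc 1 (#P + 2)) := by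
        rw [card_insert_of_notMem hpP, Nat.card_Icc]; omega
      obtain ⟨s, hs, s', hs', hss, hfe⟩ := exists_ne_map_eq_of_card_lt_of_maps_to hlt hf
      have key : ∀ t ∈ Icc 1 (#P + 2), f t = f s → ∀ i j, 
          orderOf (ψ (U₁ (g s))) = ℓ ^ i → orderOf (φ (U₂ (g s))) = ℓ ^ j → j = i + t := by
        intro t ht hft i j hi hj
        have hgt : g t = g s := by
          ext
          rw [hg t ht, hg s hs, hft]
        have hb := hgb t ht
        rw [hΨa, hgt] at hb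
        refine ord_good (a := a) hℓ hi hj ?_ hb
        rcases mem_insert.1 (hf s hs) with h | h
        · right
          have h1 := hφ (U₂ (g s)) (e2 _ _ (by rw [hg s hs, h]))
          rw [hj] at h1
          have h2 := Nat.pow_right_injective hℓ.two_le h1
          rw [mem_Icc] at ht
          omega
        · left
          have h1 := hψ (f s) h (U₁ (g s)) (e1 _ _ (hg s hs))
          rw [hi, Nat.pow_dvd_pow_iff_le_right hℓ.one_lt] at h1
          exact h1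
      obtain ⟨i, -, hi⟩ := (Nat.dvd_prime_pow hℓ).1
        (orderOf_dvd_of_pow_eq_one (hψB (U₁ (g s))))
      obtain ⟨j, -, hj⟩ := (Nat.dvd_prime_pow hℓ).1
        (orderOf_dvd_of_pow_eq_one (hφB (U₂ (g s))))
      have k1 := key s hs rfl i j hi hj
      have k2 := key s' hs' hfe.symm i j hi hj
      omega
    obtain ⟨s, hs, hgood⟩ := hs
    rw [mem_Icc] at hs
    refine ⟨m * q, max B B', Ψ s, Nat.mul_pos hm hq.pos, Nat.Coprime.mul_left hmN hqN, ?_, ?_,
      hgood⟩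
    · intro u
      rw [hΨa, mul_pow]
      have h1 : ψ (U₁ u) ^ ℓ ^ max B B' = 1 := by
        obtain ⟨c, hc⟩ := pow_dvd_pow ℓ (le_max_left B B')
        rw [hc, pow_mul, hψB, one_pow]
      have h2 : φ (U₂ u) ^ ℓ ^ max B B' = 1 := by
        obtain ⟨c, hc⟩ := pow_dvd_pow ℓ (le_max_right B B')
        rw [hc, pow_mul, hφB, one_pow]
      rw [h1, ← pow_mul, mul_comm (ℓ ^ s), pow_mul, h2, one_pow, one_mul]
    · rw [hΨa]
      have h1 : U₁ (-1) = -1 := by
        ext; rw [hU₁, ZMod.unitsMap_val]; simp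
      have h2 : U₂ (-1) = -1 := by
        ext; rw [hU₂, ZMod.unitsMap_val]; simp
      rw [h1, h2, hψ1, one_mul]
      have h3 : φ (-1) ^ 2 = 1 := by rw [← map_pow]; simp
      have h4 : φ (-1) ^ ℓ = 1 := by
        rcases hℓ.eq_two_or_odd' with h | h
        · rw [h]; exact h3
        · have h5 : φ (-1) = 1 := by
            have h6 := orderOf_dvd_of_pow_eq_one h3
            have h7 := orderOf_dvd_of_pow_eq_one (hφB (-1))
            have h8 : Nat.Coprime 2 (ℓ ^ B') := 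
              (Nat.coprime_two_left.2 h).pow_right _
            have h9 := Nat.dvd_gcd h6 h7
            rw [h8] at h9
            exact orderOf_eq_one_iff.1 (Nat.dvd_one.1 h9)
          rw [h5, one_pow]
      obtain ⟨c, hc⟩ := dvd_pow_self ℓ (show s ≠ 0 by omega)
      rw [hc, pow_mul, h4, one_pow]

/-- **block [E]** -/
theorem exists_psi (ℓ : ℕ) (hℓ : ℓ.Prime) (a : ℕ) (N : ℕ) (hN : N ≠ 0) (P : Finset ℕ)
    (hP : ∀ p ∈ P, 2 ≤ p) : ∃ (m b : ℕ) (ψ : (ZMod m)ˣ →* Multiplicative (ZMod (ℓ ^ b))), 0 < m ∧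
      m.Coprime N ∧ (∀ p ∈ P, p.Coprime m) ∧ Function.Surjective ψ ∧ ψ (-1) = 1 ∧
      ∀ p ∈ P, ∀ u : (ZMod m)ˣ, (u : ZMod m) = p → ℓ ^ (a + 1) ∣ orderOf (ψ u) := by
  classical
  have hN' : N * ∏ p ∈ P, p ≠ 0 :=
    mul_ne_zero hN (prod_ne_zero_iff.2 fun p hp => by have := hP p hp; omega)
  obtain ⟨m, B, ψ, hm, hmN, hψB, hψ1, hψ⟩ := exists_psi_aux ℓ hℓ a (N * ∏ p ∈ P, p) hN' P
    fun p hp => ⟨hP p hp, (dvd_prod_of_mem (fun p => p) hp).trans (Dvd.intro_left _ rfl)⟩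
  haveI : NeZero m := ⟨hm.ne'⟩
  haveI : Finite ψ.range := inferInstance
  haveI : IsCyclic ψ.range := inferInstance
  have hcard : ∃ b, Nat.card ψ.range = ℓ ^ b := by
    obtain ⟨g, hg⟩ := IsCyclic.exists_generator (α := ψ.range)
    obtain ⟨u, hu⟩ := g.2
    have h1 : orderOf g = Nat.card ψ.range := orderOf_eq_card_of_forall_mem_zpowers hg
    have h2 : g ^ ℓ ^ B = 1 := by
      ext
      rw [SubgroupClass.coe_pow, ← hu, hψB]; rfl
    obtain ⟨b, -, hb⟩ := (Nat.dvd_prime_pow hℓ).1 (orderOf_dvd_of_pow_eq_one h2)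
    exact ⟨b, by rw [← h1, hb]⟩
  obtain ⟨b, hb⟩ := hcard
  let e : Multiplicative (ZMod (Nat.card ψ.range)) ≃* ψ.range := zmodCyclicMulEquiv inferInstance
  let e' : ψ.range ≃* Multiplicative (ZMod (ℓ ^ b)) := hb ▸ e.symm
  refine ⟨m, b, e'.toMonoidHom.comp ψ.rangeRestrict, hm,
    Nat.Coprime.coprime_mul_right_right hmN, fun p hp => ?_, ?_, ?_, ?_⟩
  · exact ((Nat.Coprime.coprime_mul_left_right hmN).coprime_dvd_right
      (dvd_prod_of_mem (fun p => p) hp)).symm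
  · exact e'.surjective.comp ψ.rangeRestrict_surjective
  · have h1 : ψ.rangeRestrict (-1) = 1 := by ext; simp [hψ1]
    simp [h1]
  · intro p hp u hu
    have h1 : orderOf (e'.toMonoidHom.comp ψ.rangeRestrict u) = orderOf (ψ u) := by
      rw [MonoidHom.comp_apply]
      have h2 : orderOf (e'.toMonoidHom (ψ.rangeRestrict u)) = orderOf (ψ.rangeRestrict u) :=
        orderOf_injective e'.toMonoidHom e'.injective _
      rw [h2, ← Subgroup.orderOf_coe]
      rfl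
    rw [h1]
    exact hψ p hp u hu

end Vale.Agent.P022.H967
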