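import Mathlib

/-!
# The weight on codes and the two carry automata
-/

namespace Vale.Agent.P022.H967.NS

/-! ### The code of a number: digits at even places, digits at odd places -/

/-- Binary digits at the even places. -/
def n3 (n : ℕ) : ℕ := if h : n = 0 then 0 else n % 2 + 2 * n3 (n / 4)
  decreasing_by omega

/-- Binary digits at the odd places. -/
def n5 (n : ℕ) : ℕ := if h : n = 0 then 0 else (n / 2) % 2 + 2 * n5 (n / 4)
  decreasing_by omega

theorem n3_zero : n3 0 = 0 := by rw [n3]; simp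

theorem n5_zero : n5 0 = 0 := by rw [n5]; simp

theorem n3_rec (n : ℕ) : n3 n = n % 2 + 2 * n3 (n / 4) := by
  by_cases h : n = 0
  · subst h; simp [n3_zero]
  · rw [n3, dif_neg h]

theorem n5_rec (n : ℕ) : n5 n = (n / 2) % 2 + 2 * n5 (n / 4) := by
  by_cases h : n = 0
  · subst h; simp [n5_zero]
  · rw [n5, dif_neg h]

theorem n3_step (n r : ℕ) (hr : r < 4) : n3 (4 * n + r) = r % 2 + 2 * n3 n := by
  rw [n3_rec, show (4 * n + r) % 2 = r % 2 by omega, show (4 * n + r) / 4 = n by omega]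

theorem n5_step (n r : ℕ) (hr : r < 4) : n5 (4 * n + r) = (r / 2) % 2 + 2 * n5 n := by
  rw [n5_rec, show (4 * n + r) / 2 % 2 = (r / 2) % 2 by omega,
    show (4 * n + r) / 4 = n by omega]

/-- The code is injective. -/
theorem code_inj (m : ℕ) : ∀ n, n3 m = n3 n → n5 m = n5 n → m = n := by
  induction m using Nat.strong_induction_on with
  | _ m ih =>
    intro n h3 h5
    rw [n3_rec m, n3_rec n] at h3
    rw [n5_rec m, n5_rec n] at h5
    by_cases hm : m = 0
    · subst hm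
      clear ih
      induction n using Nat.strong_induction_on with
      | _ n ih =>
        by_cases hn : n = 0
        · exact hn.symm
        · have h3' : n3 (n / 4) = 0 ∧ n % 2 = 0 := by
            simp [n3_zero] at h3; omega
          have h5' : n5 (n / 4) = 0 ∧ n / 2 % 2 = 0 := by
            simp [n5_zero] at h5; omega
          have := ih (n / 4) (by omega)
            (by rw [← n3_rec (n / 4), h3'.1]; simp [n3_zero])
            (by rw [← n5_rec (n / 4), h5'.1]; simp [n5_zero])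
          omega
    · have := ih (m / 4) (by omega) (n / 4) (by omega) (by omega)
      omega

/-- Every code occurs. -/
theorem exists_code (p q : ℕ) : ∃ m, n3 m = p ∧ n5 m = q := by
  have key : ∀ N p q, p + q ≤ N → ∃ m, n3 m = p ∧ n5 m = q := by
    intro N
    induction N with
    | zero =>
      intro p q h
      exact ⟨0, by rw [n3_zero]; omega, by rw [n5_zero]; omega⟩
    | succ N ih =>
      intro p q h
      by_cases h0 : p + q = 0
      · exact ⟨0, by rw [n3_zero]; omega, by rw [n5_zero]; omega⟩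
      · obtain ⟨m, h3, h5⟩ := ih (p / 2) (q / 2) (by omega)
        refine ⟨4 * m + (p % 2 + 2 * (q % 2)), ?_, ?_⟩
        · rw [n3_step _ _ (by omega), h3]; omega
        · rw [n5_step _ _ (by omega), h5]; omega
  exact key _ p q le_rfl

/-- The number with a given code. -/
noncomputable def cd (p q : ℕ) : ℕ := (exists_code p q).choose

theorem n3_cd (p q : ℕ) : n3 (cd p q) = p := (exists_code p q).choose_spec.1

theorem n5_cd (p q : ℕ) : n5 (cd p q) = q := (exists_code p q).choose_spec.2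

theorem cd_code (m : ℕ) : cd (n3 m) (n5 m) = m := code_inj _ _ (n3_cd _ _) (n5_cd _ _)

theorem cd_zero : cd 0 0 = 0 := code_inj _ _ (by rw [n3_cd, n3_zero]) (by rw [n5_cd, n5_zero])

/-! ### Disjoint binary expansions -/

theorem land_step {a b r s : ℕ} (hr : r < 4) (hs : s < 4) (h : (4 * a + r) &&& (4 * b + s) = 0) :
    a &&& b = 0 ∧ r &&& s = 0 := by
  have h1 : ((4 * a + r) &&& (4 * b + s)) / 2 ^ 2 = 0 := by rw [h]; rfl
  have h2 : ((4 * a + r) &&& (4 * b + s)) % 2 ^ 2 = 0 := by rw [h]; rfl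
  rw [Nat.and_div_two_pow] at h1
  rw [Nat.and_mod_two_pow] at h2
  rw [show (4 * a + r) / 2 ^ 2 = a by omega, show (4 * b + s) / 2 ^ 2 = b by omega] at h1
  rw [show (4 * a + r) % 2 ^ 2 = r by omega, show (4 * b + s) % 2 ^ 2 = s by omega] at h2
  exact ⟨h1, h2⟩

theorem land_mk {a b r s : ℕ} (hr : r < 4) (hs : s < 4) (h1 : a &&& b = 0) (h2 : r &&& s = 0) :
    (4 * a + r) &&& (4 * b + s) = 0 := by
  have h3 : ((4 * a + r) &&& (4 * b + s)) / 2 ^ 2 = 0 := by
    rw [Nat.and_div_two_pow, show (4 * a + r) / 2 ^ 2 = a by omega,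
      show (4 * b + s) / 2 ^ 2 = b by omega, h1]
  have h4 : ((4 * a + r) &&& (4 * b + s)) % 2 ^ 2 = 0 := by
    rw [Nat.and_mod_two_pow, show (4 * a + r) % 2 ^ 2 = r by omega,
      show (4 * b + s) % 2 ^ 2 = s by omega, h2]
  omega

/-! ### The automata -/

/-- A state: two carries, the carry of the constraint, and the extremal pair. -/
structure Sta where
  c : ℕ
  d : ℕ
  p : ℕ
  x : ℤ
  y : ℤ
deriving DecidableEq

/-- The difference of codes `(A, B)` is heavier than the pair of the state, or equal to it. -/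
def Inv (s : Sta) (A B : ℤ) : Prop :=
  2 * s.x + 3 * s.y < 2 * A + 3 * B ∨ (A = s.x ∧ B = s.y)

instance (s : Sta) (A B : ℤ) : Decidable (Inv s A B) := by unfold Inv; infer_instance

/-- The finite check for one state and one pair of digits. -/
def Chk (u v w : ℕ) (T : List Sta) (s : Sta) (β η : ℕ) : Prop :=
  β &&& ((w * η + s.p) % 4) = 0 → ∃ t ∈ T, t.c = (u * β + v * η + s.c) / 4 ∧
    t.d = (u * β + η + s.d) / 4 ∧ t.p = (w * η + s.p) / 4 ∧
    Inv s ((((u * β + v * η + s.c) % 4 % 2 : ℕ) : ℤ) - (((u * β + η + s.d) % 4 % 2 : ℕ) : ℤ)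
      + 2 * t.x)
      ((((u * β + v * η + s.c) % 4 / 2 : ℕ) : ℤ) - (((u * β + η + s.d) % 4 / 2 : ℕ) : ℤ)
      + 2 * t.y)

instance (u v w : ℕ) (T : List Sta) (s : Sta) (β η : ℕ) : Decidable (Chk u v w T s β η) := by
  unfold Chk; infer_instance

/-- The table is closed. -/
def Closed (u v w : ℕ) (T : List Sta) : Prop :=
  ∀ s ∈ T, s.c < 8 ∧ s.d < 8 ∧ (s.c = 0 → s.d = 0 → s.x = 0 ∧ s.y = 0) ∧
    ∀ β < 4, ∀ η < 4, Chk u v w T s β η

instance (u v w : ℕ) (T : List Sta) : Decidable (Closed u v w T) := by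
  unfold Closed; infer_instance

/-- The induction over the digits. -/
theorem run {u v w : ℕ} {T : List Sta} (hT : Closed u v w T) (N : ℕ) :
    ∀ s ∈ T, ∀ b e, 20 * (b + e) + s.c + s.d ≤ N → b &&& (w * e + s.p) = 0 →
      Inv s ((n3 (u * b + v * e + s.c) : ℤ) - n3 (u * b + e + s.d))
        ((n5 (u * b + v * e + s.c) : ℤ) - n5 (u * b + e + s.d)) := by
  induction N using Nat.strong_induction_on with
  | _ N ih =>
    intro s hs b e hN hbe
    obtain ⟨hc, hd, h0, hchk⟩ := hT s hs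
    by_cases hz : b = 0 ∧ e = 0 ∧ s.c = 0 ∧ s.d = 0
    · obtain ⟨rfl, rfl, hc0, hd0⟩ := hz
      obtain ⟨hx, hy⟩ := h0 hc0 hd0
      right
      rw [hc0, hd0, hx, hy]
      simp
    obtain ⟨b', β, hβ, rfl⟩ : ∃ b' β, β < 4 ∧ b = 4 * b' + β := ⟨b / 4, b % 4, by omega, by omega⟩
    obtain ⟨e', η, hη, rfl⟩ : ∃ e' η, η < 4 ∧ e = 4 * e' + η := ⟨e / 4, e % 4, by omega, by omega⟩
    have hw : w * (4 * e' + η) + s.p = 4 * (w * e' + (w * η + s.p) / 4) + (w * η + s.p) % 4 := by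
      have h1 : w * (4 * e' + η) = 4 * (w * e') + w * η := by ring
      rw [h1]; omega
    rw [hw] at hbe
    obtain ⟨hb1, hb2⟩ := land_step hβ (Nat.mod_lt _ (by norm_num)) hbe
    obtain ⟨t, ht, htc, htd, htp, hinv⟩ := hchk β hβ η hη hb2
    have e1 : u * (4 * b' + β) + v * (4 * e' + η) + s.c =
        4 * (u * b' + v * e' + t.c) + (u * β + v * η + s.c) % 4 := by
      have h1 : u * (4 * b' + β) + v * (4 * e' + η) = 4 * (u * b' + v * e') + (u * β + v * η) := by
        ring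
      rw [h1, htc]; omega
    have e2 : u * (4 * b' + β) + (4 * e' + η) + s.d =
        4 * (u * b' + e' + t.d) + (u * β + η + s.d) % 4 := by
      have h1 : u * (4 * b' + β) + (4 * e' + η) = 4 * (u * b' + e') + (u * β + η) := by
        ring
      rw [h1, htd]; omega
    rw [← htp] at hb1
    have hlt : 20 * (b' + e') + t.c + t.d < N := by
      obtain ⟨hc', hd', -, -⟩ := hT t ht
      by_cases hbe0 : 4 * b' + β + (4 * e' + η) = 0
      · have hb0 : b' = 0 := by omega
        have he0 : e' = 0 := by omega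
        have hβ0 : β = 0 := by omega
        have hη0 : η = 0 := by omega
        subst hb0 he0 hβ0 hη0
        rw [htc, htd]
        simp only [Nat.mul_zero, Nat.zero_add]
        simp only [Nat.mul_zero, Nat.add_zero, true_and, Nat.zero_add] at hz hN
        omega
      · omega
    have h := ih _ hlt t ht b' e' le_rfl hb1
    rw [e1, e2, n3_step _ _ (Nat.mod_lt _ (by norm_num)), n3_step _ _ (Nat.mod_lt _ (by norm_num)),
      n5_step _ _ (Nat.mod_lt _ (by norm_num)), n5_step _ _ (Nat.mod_lt _ (by norm_num))]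
    rw [Nat.mod_eq_of_lt (show (u * β + v * η + s.c) % 4 / 2 < 2 by omega),
      Nat.mod_eq_of_lt (show (u * β + η + s.d) % 4 / 2 < 2 by omega)]
    unfold Inv at h hinv ⊢
    push_cast at h hinv ⊢
    omega

/-- The table of `T_3`. -/
def tab3 : List Sta := [⟨0, 0, 0, 0, 0⟩, ⟨1, 0, 0, 1, 0⟩, ⟨1, 0, 1, 1, 0⟩, ⟨1, 1, 0, 0, 0⟩,
  ⟨2, 0, 1, 0, 1⟩, ⟨2, 1, 1, -1, 1⟩, ⟨3, 1, 1, 0, 1⟩, ⟨3, 2, 1, 1, 0⟩]

/-- The table of `T_5`. -/
def tab5 : List Sta := [⟨0, 0, 0, 0, 0⟩, ⟨0, 0, 1, 0, 0⟩, ⟨1, 0, 1, 1, 0⟩, ⟨1, 0, 2, -1, 1⟩,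
  ⟨1, 1, 1, 0, 0⟩, ⟨2, 0, 2, 0, 1⟩, ⟨2, 0, 3, 0, 1⟩, ⟨2, 1, 2, -1, 1⟩, ⟨3, 0, 3, -1, 2⟩,
  ⟨3, 0, 4, 1, 0⟩, ⟨3, 1, 3, 0, 1⟩, ⟨3, 1, 4, 2, -1⟩, ⟨4, 0, 4, 2, 0⟩, ⟨4, 0, 5, 2, 0⟩,
  ⟨4, 1, 4, 1, 0⟩, ⟨4, 1, 5, 1, 0⟩, ⟨5, 1, 5, 2, 0⟩]

theorem closed3 : Closed 2 3 2 tab3 := by decide +kernel

theorem closed5 : Closed 1 5 6 tab5 := by decide +kernel

/-- The weight of the exponents of `T_3`. -/
theorem drop3 (b e : ℕ) (h : b &&& (2 * e) = 0) :
    2 < 2 * ((n3 (2 * b + 3 * e + 1) : ℤ) - n3 (2 * b + e)) +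
      3 * ((n5 (2 * b + 3 * e + 1) : ℤ) - n5 (2 * b + e)) ∨
    (n3 (2 * b + 3 * e + 1) = n3 (2 * b + e) + 1 ∧ n5 (2 * b + 3 * e + 1) = n5 (2 * b + e)) := by
  have h1 := run closed3 _ ⟨1, 0, 0, 1, 0⟩ (by decide) b e le_rfl (by simpa using h)
  unfold Inv at h1
  simp only [Nat.add_zero] at h1
  omega

/-- The weight of the exponents of `T_5`. -/
theorem drop5 (b e : ℕ) (h : b &&& (6 * e + 2) = 0) :
    3 < 2 * ((n3 (b + 5 * e + 2) : ℤ) - n3 (b + e)) +
      3 * ((n5 (b + 5 * e + 2) : ℤ) - n5 (b + e)) ∨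
    (n3 (b + 5 * e + 2) = n3 (b + e) ∧ n5 (b + 5 * e + 2) = n5 (b + e) + 1) := by
  have h1 := run closed5 _ ⟨2, 0, 2, 0, 1⟩ (by decide) b e le_rfl (by simpa using h)
  unfold Inv at h1
  simp only [Nat.add_zero, one_mul] at h1
  omega

/-! ### The leading pairs -/

theorem lead3 (m : ℕ) : n3 m ≠ 0 → ∃ b e, m = 2 * b + 3 * e + 1 ∧ b &&& (2 * e) = 0 ∧
    n3 m = n3 (2 * b + e) + 1 ∧ n5 m = n5 (2 * b + e) := by
  induction m using Nat.strong_induction_on with
  | _ m ih =>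
    intro h
    obtain ⟨q, r, hr, rfl⟩ : ∃ q r, r < 4 ∧ m = 4 * q + r := ⟨m / 4, m % 4, by omega, by omega⟩
    rw [n3_step _ _ hr] at h
    by_cases hr2 : r % 2 = 1
    · refine ⟨2 * q + r / 2, 0, by omega, by simp, ?_, ?_⟩
      · rw [n3_step _ _ hr, show 2 * (2 * q + r / 2) + 0 = 4 * q + (r - 1) by omega,
          n3_step _ _ (by omega)]
        omega
      · rw [n5_step _ _ hr, show 2 * (2 * q + r / 2) + 0 = 4 * q + (r - 1) by omega,
          n5_step _ _ (by omega)]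
        omega
    · have hq : n3 q ≠ 0 := by omega
      have hq0 : q ≠ 0 := by
        rintro rfl
        exact hq n3_zero
      obtain ⟨b, e, he, hbe, h3, h5⟩ := ih q (by omega) hq
      refine ⟨4 * b + r / 2, 4 * e + 1, by omega, ?_, ?_, ?_⟩
      · rw [show 2 * (4 * e + 1) = 4 * (2 * e) + 2 by ring]
        refine land_mk (by omega) (by norm_num) hbe ?_
        have : r / 2 = 0 ∨ r / 2 = 1 := by omega
        rcases this with h | h <;> rw [h] <;> decide
      · rw [n3_step _ _ hr, show 2 * (4 * b + r / 2) + (4 * e + 1) = 4 * (2 * b + e) + (r + 1) by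
          omega, n3_step _ _ (by omega), h3]
        omega
      · rw [n5_step _ _ hr, show 2 * (4 * b + r / 2) + (4 * e + 1) = 4 * (2 * b + e) + (r + 1) by
          omega, n5_step _ _ (by omega), h5]
        omega

theorem lead5 (m : ℕ) : n5 m ≠ 0 → ∃ b e, m = b + 5 * e + 2 ∧ b &&& (6 * e + 2) = 0 ∧
    n3 m = n3 (b + e) ∧ n5 m = n5 (b + e) + 1 := by
  induction m using Nat.strong_induction_on with
  | _ m ih =>
    intro h
    obtain ⟨q, r, hr, rfl⟩ : ∃ q r, r < 4 ∧ m = 4 * q + r := ⟨m / 4, m % 4, by omega, by omega⟩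
    rw [n5_step _ _ hr] at h
    by_cases hr2 : r / 2 = 1
    · refine ⟨4 * q + (r - 2), 0, by omega, ?_, ?_, ?_⟩
      · rw [show 6 * 0 + 2 = 4 * 0 + 2 by ring]
        refine land_mk (by omega) (by norm_num) (by simp) ?_
        have : r - 2 = 0 ∨ r - 2 = 1 := by omega
        rcases this with h | h <;> rw [h] <;> decide
      · rw [n3_step _ _ hr, Nat.add_zero, n3_step _ _ (by omega)]
        omega
      · rw [n5_step _ _ hr, show 4 * q + (r - 2) + 0 = 4 * q + (r - 2) by omega,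
          n5_step _ _ (by omega)]
        omega
    · have hq : n5 q ≠ 0 := by omega
      have hq0 : q ≠ 0 := by
        rintro rfl
        exact hq n5_zero
      obtain ⟨b, e, he, hbe, h3, h5⟩ := ih q (by omega) hq
      refine ⟨4 * b + (r + 1), 4 * e + 1, by omega, ?_, ?_, ?_⟩
      · rw [show 6 * (4 * e + 1) + 2 = 4 * (6 * e + 2) + 0 by ring]
        exact land_mk (by omega) (by norm_num) hbe (by simp)
      · rw [n3_step _ _ hr, show 4 * b + (r + 1) + (4 * e + 1) = 4 * (b + e) + (r + 2) by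
          omega, n3_step _ _ (by omega), h3]
        omega
      · rw [n5_step _ _ hr, show 4 * b + (r + 1) + (4 * e + 1) = 4 * (b + e) + (r + 2) by
          omega, n5_step _ _ (by omega), h5]
        omega

end Vale.Agent.P022.H967.NS
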