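import Vale.Agent.P022.H967.NS
import Vale.Agent.P022.H30.Op

/-!
# The sharp form of the theorem of Nicolas and Serre
-/

namespace Vale.Agent.P022.H967.NS

open Polynomial Vale.Agent.P022.H30

/-! ### Binomial coefficients modulo two -/

theorem land2 {a b r s : ℕ} (hr : r < 2) (hs : s < 2) :
    (2 * a + r) &&& (2 * b + s) = 0 ↔ a &&& b = 0 ∧ r &&& s = 0 := by
  have e1 : ((2 * a + r) &&& (2 * b + s)) / 2 ^ 1 = a &&& b := by
    rw [Nat.and_div_two_pow, show (2 * a + r) / 2 ^ 1 = a by omega,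
      show (2 * b + s) / 2 ^ 1 = b by omega]
  have e2 : ((2 * a + r) &&& (2 * b + s)) % 2 ^ 1 = r &&& s := by
    rw [Nat.and_mod_two_pow, show (2 * a + r) % 2 ^ 1 = r by omega,
      show (2 * b + s) % 2 ^ 1 = s by omega]
  constructor
  · intro h
    rw [h] at e1 e2
    exact ⟨e1.symm.trans (by norm_num), e2.symm.trans (by norm_num)⟩
  · rintro ⟨h1, h2⟩
    rw [h1] at e1
    rw [h2] at e2
    omega

theorem choose_two (x y : ℕ) : (((x + y).choose y : ℕ) : ZMod 2) = if x &&& y = 0 then 1 else 0 := by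
  have key : ∀ N x y, x + y ≤ N → (x + y).choose y % 2 = if x &&& y = 0 then 1 else 0 := by
    intro N
    induction N using Nat.strong_induction_on with
    | _ N ih =>
      intro x y h
      by_cases h0 : x + y = 0
      · have hx : x = 0 := by omega
        have hy : y = 0 := by omega
        subst hx hy
        simp
      obtain ⟨a, r, hr, rfl⟩ : ∃ a r, r < 2 ∧ x = 2 * a + r := ⟨x / 2, x % 2, by omega, by omega⟩
      obtain ⟨b, s, hs, rfl⟩ : ∃ b s, s < 2 ∧ y = 2 * b + s := ⟨y / 2, y % 2, by omega, by omega⟩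
      have hl := Choose.choose_modEq_choose_mod_mul_choose_div_nat (n := 2 * a + r + (2 * b + s))
        (k := 2 * b + s) (p := 2)
      unfold Nat.ModEq at hl
      rw [hl, show (2 * b + s) % 2 = s by omega, show (2 * b + s) / 2 = b by omega]
      have h2 := land2 (a := a) (b := b) hr hs
      by_cases hrs : r = 1 ∧ s = 1
      · obtain ⟨rfl, rfl⟩ := hrs
        rw [show (2 * a + 1 + (2 * b + 1)) % 2 = 0 by omega, if_neg]
        · simp
        · rw [h2]
          rintro ⟨-, h3⟩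
          exact absurd h3 (by decide)
      · have h3 : r &&& s = 0 := by
          have h4 : r = 0 ∨ r = 1 := by omega
          have h5 : s = 0 ∨ s = 1 := by omega
          rcases h4 with rfl | rfl <;> rcases h5 with rfl | rfl <;> first | decide | exact absurd ⟨rfl, rfl⟩ hrs
        have h4 : (r + s).choose s = 1 := by
          have h4 : r = 0 ∨ r = 1 := by omega
          have h5 : s = 0 ∨ s = 1 := by omega
          rcases h4 with rfl | rfl <;> rcases h5 with rfl | rfl <;> first | decide | exact absurd ⟨rfl, rfl⟩ hrs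
        rw [show (2 * a + r + (2 * b + s)) % 2 = r + s by omega,
          show (2 * a + r + (2 * b + s)) / 2 = a + b by omega, h4, one_mul,
          ih (a + b) (by omega) a b le_rfl]
        simp only [h2, h3, and_true]
  rw [← ZMod.natCast_mod, key _ x y le_rfl]
  split_ifs <;> simp

theorem id3 (N k : ℕ) : (((N + 4).choose k : ℕ) : ZMod 2) =
    (N.choose k : ZMod 2) + if 4 ≤ k then ((N.choose (k - 4) : ℕ) : ZMod 2) else 0 := by
  rw [← coeff_X_add_one_pow, ← coeff_X_add_one_pow, ← coeff_X_add_one_pow,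
    ← coeff_X_pow_mul', ← coeff_add]
  congr 1
  linear_combination ((X + 1) ^ N * (2 * X ^ 3 + 3 * X ^ 2 + 2 * X)) *
    (CharTwo.two_eq_zero : (2 : (ZMod 2)[X]) = 0)

theorem id5 (N k : ℕ) : (((N + 6).choose k : ℕ) : ZMod 2) =
    (N.choose k : ZMod 2) + (if 2 ≤ k then (((N + 4).choose (k - 2) : ℕ) : ZMod 2) else 0) +
      (if 4 ≤ k then (((N + 2).choose (k - 4) : ℕ) : ZMod 2) else 0) +
      (if 6 ≤ k then ((N.choose (k - 6) : ℕ) : ZMod 2) else 0) := by
  rw [← coeff_X_add_one_pow, ← coeff_X_add_one_pow, ← coeff_X_add_one_pow, ← coeff_X_add_one_pow,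
    ← coeff_X_add_one_pow, ← coeff_X_pow_mul', ← coeff_X_pow_mul', ← coeff_X_pow_mul',
    ← coeff_add, ← coeff_add, ← coeff_add]
  congr 1
  have h2 : (2 : (ZMod 2)[X]) = 0 := CharTwo.two_eq_zero
  linear_combination ((X + 1) ^ N * (-X ^ 6 + 4 * X ^ 4 + 8 * X ^ 3 + 7 * X ^ 2 + 3 * X)) * h2

/-! ### Closed formulas -/

section Closed

variable {u v : ℕ → (ZMod 2)[X]}

theorem supp3 (h : ∀ n, u (n + 4) = X * u (n + 1) + X ^ 4 * u n) (h0 : u 0 = 0) (h1 : u 1 = 0)
    (h2 : u 2 = 0) (h3 : u 3 = X) (n : ℕ) : ∀ j, (u n).coeff j ≠ 0 →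
      ∃ i k, n = 3 * (i + 1) + k ∧ j = (i + 1) + k := by
  induction n using Nat.strong_induction_on with
  | _ n ih =>
    intro j hj
    by_cases hn : n < 4
    · have hc : n = 0 ∨ n = 1 ∨ n = 2 ∨ n = 3 := by omega
      rcases hc with rfl | rfl | rfl | rfl
      · rw [h0, coeff_zero] at hj; exact absurd rfl hj
      · rw [h1, coeff_zero] at hj; exact absurd rfl hj
      · rw [h2, coeff_zero] at hj; exact absurd rfl hj
      · rw [h3, coeff_X] at hj
        split_ifs at hj with hj1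
        · exact ⟨0, 0, rfl, hj1.symm⟩
        · exact absurd rfl hj
    · obtain ⟨m, rfl⟩ : ∃ m, n = m + 4 := ⟨n - 4, by omega⟩
      rw [h, coeff_add, ← pow_one X, coeff_X_pow_mul', pow_one, coeff_X_pow_mul'] at hj
      by_cases ha : (if 1 ≤ j then (u (m + 1)).coeff (j - 1) else 0) = 0
      · rw [ha, zero_add] at hj
        split_ifs at hj with h4
        · obtain ⟨i, k, e1, e2⟩ := ih m (by omega) _ hj
          exact ⟨i, k + 4, by omega, by omega⟩
        · exact absurd rfl hj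
      · split_ifs at ha with h4
        · obtain ⟨i, k, e1, e2⟩ := ih (m + 1) (by omega) _ ha
          exact ⟨i + 1, k, by omega, by omega⟩
        · exact absurd rfl ha

theorem coeff3 (h : ∀ n, u (n + 4) = X * u (n + 1) + X ^ 4 * u n) (h0 : u 0 = 0) (h1 : u 1 = 0)
    (h2 : u 2 = 0) (h3 : u 3 = X) (n : ℕ) : ∀ i k, n = 3 * (i + 1) + k →
      (u n).coeff ((i + 1) + k) = (((4 * i + 3 + k).choose k : ℕ) : ZMod 2) := by
  induction n using Nat.strong_induction_on with
  | _ n ih =>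
    intro i k hn
    by_cases hn4 : n < 4
    · have hi : i = 0 := by omega
      have hk : k = 0 := by omega
      subst hi hk
      subst hn
      rw [show 3 * (0 + 1) + 0 = 3 by norm_num, h3]
      simp
    · obtain ⟨m, hm⟩ : ∃ m, n = m + 4 := ⟨n - 4, by omega⟩
      rw [hm, h, coeff_add, ← pow_one X, coeff_X_pow_mul', pow_one, coeff_X_pow_mul',
        if_pos (by omega), show i + 1 + k - 1 = i + k by omega]
      obtain ⟨N, hN⟩ : ∃ N, 4 * i + k = N + 1 := ⟨4 * i + k - 1, by omega⟩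
      rw [show 4 * i + 3 + k = N + 4 by omega, id3]
      congr 1
      · by_cases hi : i = 0
        · subst hi
          rw [Nat.choose_eq_zero_of_lt (by omega), Nat.cast_zero]
          by_contra hc
          obtain ⟨i', k', e1, e2⟩ := supp3 h h0 h1 h2 h3 _ _ hc
          omega
        · obtain ⟨i', rfl⟩ : ∃ i', i = i' + 1 := ⟨i - 1, by omega⟩
          rw [ih (m + 1) (by omega) i' k (by omega), show 4 * i' + 3 + k = N by omega]
      · by_cases hk : 4 ≤ k
        · obtain ⟨k', rfl⟩ : ∃ k', k = k' + 4 := ⟨k - 4, by omega⟩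
          rw [if_pos (by omega), if_pos hk, show i + 1 + (k' + 4) - 4 = i + 1 + k' by omega,
            ih m (by omega) i k' (by omega), show k' + 4 - 4 = k' by omega,
            show 4 * i + 3 + k' = N by omega]
        · rw [if_neg hk]
          split_ifs with h4
          · by_contra hc
            obtain ⟨i', k', e1, e2⟩ := supp3 h h0 h1 h2 h3 _ _ hc
            omega
          · rfl

theorem supp5 (h : ∀ n, v (n + 6) = X * v (n + 1) + X ^ 2 * v (n + 4) + X ^ 4 * v (n + 2) +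
      X ^ 6 * v n) (h0 : v 0 = 0) (h1 : v 1 = 0) (h2 : v 2 = 0) (h3 : v 3 = 0) (h4 : v 4 = 0)
    (h5 : v 5 = X) (n : ℕ) : ∀ j, (v n).coeff j ≠ 0 →
      ∃ i k, n = 5 * (i + 1) + k ∧ j = (i + 1) + k := by
  induction n using Nat.strong_induction_on with
  | _ n ih =>
    intro j hj
    by_cases hn : n < 6
    · have hc : n = 0 ∨ n = 1 ∨ n = 2 ∨ n = 3 ∨ n = 4 ∨ n = 5 := by omega
      rcases hc with rfl | rfl | rfl | rfl | rfl | rfl
      · rw [h0, coeff_zero] at hj; exact absurd rfl hj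
      · rw [h1, coeff_zero] at hj; exact absurd rfl hj
      · rw [h2, coeff_zero] at hj; exact absurd rfl hj
      · rw [h3, coeff_zero] at hj; exact absurd rfl hj
      · rw [h4, coeff_zero] at hj; exact absurd rfl hj
      · rw [h5, coeff_X] at hj
        split_ifs at hj with hj1
        · exact ⟨0, 0, rfl, hj1.symm⟩
        · exact absurd rfl hj
    · obtain ⟨m, rfl⟩ : ∃ m, n = m + 6 := ⟨n - 6, by omega⟩
      have hj' : (if 1 ≤ j then (v (m + 1)).coeff (j - 1) else 0) +
          (if 2 ≤ j then (v (m + 4)).coeff (j - 2) else 0) +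
          (if 4 ≤ j then (v (m + 2)).coeff (j - 4) else 0) +
          (if 6 ≤ j then (v m).coeff (j - 6) else 0) ≠ 0 := by
        rw [h, coeff_add, coeff_add, coeff_add, ← pow_one X, coeff_X_pow_mul', pow_one,
          coeff_X_pow_mul', coeff_X_pow_mul', coeff_X_pow_mul'] at hj
        exact hj
      by_cases ha : (if 1 ≤ j then (v (m + 1)).coeff (j - 1) else 0) = 0
      · by_cases hb : (if 2 ≤ j then (v (m + 4)).coeff (j - 2) else 0) = 0
        · by_cases hc : (if 4 ≤ j then (v (m + 2)).coeff (j - 4) else 0) = 0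
          · rw [ha, hb, hc, zero_add, zero_add, zero_add] at hj'
            split_ifs at hj' with h6
            · obtain ⟨i, k, e1, e2⟩ := ih m (by omega) _ hj'
              exact ⟨i, k + 6, by omega, by omega⟩
            · exact absurd rfl hj'
          · split_ifs at hc with h6
            · obtain ⟨i, k, e1, e2⟩ := ih (m + 2) (by omega) _ hc
              exact ⟨i, k + 4, by omega, by omega⟩
            · exact absurd rfl hc
        · split_ifs at hb with h6
          · obtain ⟨i, k, e1, e2⟩ := ih (m + 4) (by omega) _ hb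
            exact ⟨i, k + 2, by omega, by omega⟩
          · exact absurd rfl hb
      · split_ifs at ha with h6
        · obtain ⟨i, k, e1, e2⟩ := ih (m + 1) (by omega) _ ha
          exact ⟨i + 1, k, by omega, by omega⟩
        · exact absurd rfl ha

theorem coeff5 (h : ∀ n, v (n + 6) = X * v (n + 1) + X ^ 2 * v (n + 4) + X ^ 4 * v (n + 2) +
      X ^ 6 * v n) (h0 : v 0 = 0) (h1 : v 1 = 0) (h2 : v 2 = 0) (h3 : v 3 = 0) (h4 : v 4 = 0)
    (h5 : v 5 = X) (n : ℕ) : ∀ i k, n = 5 * (i + 1) + k →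
      (v n).coeff ((i + 1) + k) = (((6 * i + 5 + k).choose k : ℕ) : ZMod 2) := by
  have hs := supp5 h h0 h1 h2 h3 h4 h5
  induction n using Nat.strong_induction_on with
  | _ n ih =>
    intro i k hn
    by_cases hn6 : n < 6
    · have hi : i = 0 := by omega
      have hk : k = 0 := by omega
      subst hi hk
      subst hn
      rw [show 5 * (0 + 1) + 0 = 5 by norm_num, h5]
      simp
    · obtain ⟨m, hm⟩ : ∃ m, n = m + 6 := ⟨n - 6, by omega⟩
      have e0 : (v n).coeff (i + 1 + k) =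
          (if 1 ≤ i + 1 + k then (v (m + 1)).coeff (i + 1 + k - 1) else 0) +
          (if 2 ≤ i + 1 + k then (v (m + 4)).coeff (i + 1 + k - 2) else 0) +
          (if 4 ≤ i + 1 + k then (v (m + 2)).coeff (i + 1 + k - 4) else 0) +
          (if 6 ≤ i + 1 + k then (v m).coeff (i + 1 + k - 6) else 0) := by
        rw [hm, h, coeff_add, coeff_add, coeff_add, ← pow_one X, coeff_X_pow_mul', pow_one,
          coeff_X_pow_mul', coeff_X_pow_mul', coeff_X_pow_mul']
      obtain ⟨N, hN⟩ : ∃ N, 6 * i + k = N + 1 := ⟨6 * i + k - 1, by omega⟩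
      rw [e0, show 6 * i + 5 + k = N + 6 by omega, id5]
      congr 1
      · congr 1
        · congr 1
          · rw [if_pos (by omega), show i + 1 + k - 1 = i + k by omega]
            by_cases hi : i = 0
            · subst hi
              rw [Nat.choose_eq_zero_of_lt (by omega), Nat.cast_zero]
              by_contra hc
              obtain ⟨i', k', e1, e2⟩ := hs _ _ hc
              omega
            · obtain ⟨i', rfl⟩ : ∃ i', i = i' + 1 := ⟨i - 1, by omega⟩
              rw [ih (m + 1) (by omega) i' k (by omega), show 6 * i' + 5 + k = N by omega]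
          · by_cases hk : 2 ≤ k
            · obtain ⟨k', rfl⟩ : ∃ k', k = k' + 2 := ⟨k - 2, by omega⟩
              rw [if_pos (by omega), if_pos hk, show i + 1 + (k' + 2) - 2 = i + 1 + k' by omega,
                ih (m + 4) (by omega) i k' (by omega), show k' + 2 - 2 = k' by omega,
                show 6 * i + 5 + k' = N + 4 by omega]
            · rw [if_neg hk]
              split_ifs with h4
              · by_contra hc
                obtain ⟨i', k', e1, e2⟩ := hs _ _ hc
                omega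
              · rfl
        · by_cases hk : 4 ≤ k
          · obtain ⟨k', rfl⟩ : ∃ k', k = k' + 4 := ⟨k - 4, by omega⟩
            rw [if_pos (by omega), if_pos hk, show i + 1 + (k' + 4) - 4 = i + 1 + k' by omega,
              ih (m + 2) (by omega) i k' (by omega), show k' + 4 - 4 = k' by omega,
              show 6 * i + 5 + k' = N + 2 by omega]
          · rw [if_neg hk]
            split_ifs with h4
            · by_contra hc
              obtain ⟨i', k', e1, e2⟩ := hs _ _ hc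
              omega
            · rfl
      · by_cases hk : 6 ≤ k
        · obtain ⟨k', rfl⟩ : ∃ k', k = k' + 6 := ⟨k - 6, by omega⟩
          rw [if_pos (by omega), if_pos hk, show i + 1 + (k' + 6) - 6 = i + 1 + k' by omega,
            ih m (by omega) i k' (by omega), show k' + 6 - 6 = k' by omega,
            show 6 * i + 5 + k' = N by omega]
        · rw [if_neg hk]
          split_ifs with h4
          · by_contra hc
            obtain ⟨i', k', e1, e2⟩ := hs _ _ hc
            omega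
          · rfl

end Closed


/-! ### The leading terms -/

/-- The exponent with a given code. -/
noncomputable def ex (p q : ℕ) : ℕ := 2 * cd p q + 1

/-- The weight of an exponent. -/
def wt (n : ℕ) : ℕ := 2 * n3 (n / 2) + 3 * n5 (n / 2)

theorem ex_half (p q : ℕ) : ex p q / 2 = cd p q := by unfold ex; omega

theorem wt_ex (p q : ℕ) : wt (ex p q) = 2 * p + 3 * q := by
  unfold wt; rw [ex_half, n3_cd, n5_cd]

theorem ex_zero : ex 0 0 = 1 := by unfold ex; rw [cd_zero]

theorem ex_code {n : ℕ} (hn : n % 2 = 1) : ex (n3 (n / 2)) (n5 (n / 2)) = n := by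
  unfold ex; rw [cd_code]; omega

theorem ex_odd (p q : ℕ) : ex p q % 2 = 1 := by unfold ex; omega

/-- The properties of the two families of polynomials. -/
structure Fam (u v : ℕ → (ZMod 2)[X]) : Prop where
  u_odd : ∀ n, n % 2 = 1 → ∀ j, (u n).coeff j ≠ 0 → j % 2 = 1
  v_odd : ∀ n, n % 2 = 1 → ∀ j, (v n).coeff j ≠ 0 → j % 2 = 1
  u_drop : ∀ n, n % 2 = 1 → ∀ j, (u n).coeff j ≠ 0 → wt j + 2 < wt n ∨
    (n3 (n / 2) = n3 (j / 2) + 1 ∧ n5 (n / 2) = n5 (j / 2))
  v_drop : ∀ n, n % 2 = 1 → ∀ j, (v n).coeff j ≠ 0 → wt j + 3 < wt n ∨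
    (n3 (n / 2) = n3 (j / 2) ∧ n5 (n / 2) = n5 (j / 2) + 1)
  u_lead : ∀ p q, (u (ex (p + 1) q)).coeff (ex p q) = 1
  v_lead : ∀ p q, (v (ex p (q + 1))).coeff (ex p q) = 1

theorem fam {u v : ℕ → (ZMod 2)[X]}
    (hu : ∀ n, u (n + 4) = X * u (n + 1) + X ^ 4 * u n) (hu0 : u 0 = 0) (hu1 : u 1 = 0)
    (hu2 : u 2 = 0) (hu3 : u 3 = X)
    (hv : ∀ n, v (n + 6) = X * v (n + 1) + X ^ 2 * v (n + 4) + X ^ 4 * v (n + 2) + X ^ 6 * v n)
    (hv0 : v 0 = 0) (hv1 : v 1 = 0) (hv2 : v 2 = 0) (hv3 : v 3 = 0) (hv4 : v 4 = 0)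
    (hv5 : v 5 = X) : Fam u v := by
  have A : ∀ n, n % 2 = 1 → ∀ j, (u n).coeff j ≠ 0 →
      ∃ b e, b &&& (2 * e) = 0 ∧ n = 2 * (2 * b + 3 * e + 1) + 1 ∧ j = 2 * (2 * b + e) + 1 := by
    intro n hn j hj
    obtain ⟨i, k, rfl, rfl⟩ := supp3 hu hu0 hu1 hu2 hu3 n j hj
    rw [coeff3 hu hu0 hu1 hu2 hu3 _ i k rfl, choose_two] at hj
    by_cases hl : 4 * i + 3 &&& k = 0
    · obtain ⟨k', r, hr, rfl⟩ : ∃ k' r, r < 4 ∧ k = 4 * k' + r :=
        ⟨k / 4, k % 4, by omega, by omega⟩
      obtain ⟨h1, h2⟩ := land_step (by norm_num) hr hl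
      have hr0 : r = 0 := by
        have : r = 0 ∨ r = 1 ∨ r = 2 ∨ r = 3 := by omega
        rcases this with rfl | rfl | rfl | rfl
        · rfl
        · exact absurd h2 (by decide)
        · exact absurd h2 (by decide)
        · exact absurd h2 (by decide)
      subst hr0
      obtain ⟨e, rfl⟩ : ∃ e, i = 2 * e := ⟨i / 2, by omega⟩
      exact ⟨k', e, by rw [Nat.land_comm]; exact h1, by omega, by omega⟩
    · rw [if_neg hl] at hj
      exact absurd rfl hj
  have B : ∀ n, n % 2 = 1 → ∀ j, (v n).coeff j ≠ 0 →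
      ∃ b e, b &&& (6 * e + 2) = 0 ∧ n = 2 * (b + 5 * e + 2) + 1 ∧ j = 2 * (b + e) + 1 := by
    intro n hn j hj
    obtain ⟨i, k, rfl, rfl⟩ := supp5 hv hv0 hv1 hv2 hv3 hv4 hv5 n j hj
    rw [coeff5 hv hv0 hv1 hv2 hv3 hv4 hv5 _ i k rfl, choose_two] at hj
    by_cases hl : 6 * i + 5 &&& k = 0
    · obtain ⟨k', r, hr, rfl⟩ : ∃ k' r, r < 2 ∧ k = 2 * k' + r :=
        ⟨k / 2, k % 2, by omega, by omega⟩
      rw [show 6 * i + 5 = 2 * (3 * i + 2) + 1 by ring, land2 (by norm_num) hr] at hl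
      obtain ⟨h1, h2⟩ := hl
      have hr0 : r = 0 := by
        have : r = 0 ∨ r = 1 := by omega
        rcases this with rfl | rfl
        · rfl
        · exact absurd h2 (by decide)
      subst hr0
      obtain ⟨e, rfl⟩ : ∃ e, i = 2 * e := ⟨i / 2, by omega⟩
      refine ⟨k', e, ?_, by omega, by omega⟩
      rw [Nat.land_comm, show 6 * e + 2 = 3 * (2 * e) + 2 by ring]
      exact h1
    · rw [if_neg hl] at hj
      exact absurd rfl hj
  refine ⟨?_, ?_, ?_, ?_, ?_, ?_⟩
  · intro n hn j hj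
    obtain ⟨b, e, -, -, rfl⟩ := A n hn j hj
    omega
  · intro n hn j hj
    obtain ⟨b, e, -, -, rfl⟩ := B n hn j hj
    omega
  · intro n hn j hj
    obtain ⟨b, e, h1, rfl, rfl⟩ := A n hn j hj
    have h2 := drop3 b e h1
    unfold wt
    rw [show (2 * (2 * b + 3 * e + 1) + 1) / 2 = 2 * b + 3 * e + 1 by omega,
      show (2 * (2 * b + e) + 1) / 2 = 2 * b + e by omega]
    omega
  · intro n hn j hj
    obtain ⟨b, e, h1, rfl, rfl⟩ := B n hn j hj
    have h2 := drop5 b e h1
    unfold wt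
    rw [show (2 * (b + 5 * e + 2) + 1) / 2 = b + 5 * e + 2 by omega,
      show (2 * (b + e) + 1) / 2 = b + e by omega]
    omega
  · intro p q
    obtain ⟨b, e, h2, h1, h3, h4⟩ := lead3 (cd (p + 1) q) (by rw [n3_cd]; omega)
    rw [n3_cd] at h3
    rw [n5_cd] at h4
    have h5 : cd p q = 2 * b + e := code_inj _ _ (by rw [n3_cd]; omega) (by rw [n5_cd]; omega)
    unfold ex
    rw [h2, h5, show 2 * (2 * b + e) + 1 = 2 * e + 1 + 4 * b by ring,
      coeff3 hu hu0 hu1 hu2 hu3 _ (2 * e) (4 * b) (by ring), choose_two, if_pos]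
    have := land_mk (a := 2 * e) (b := b) (r := 3) (s := 0) (by norm_num) (by norm_num)
      (by rw [Nat.land_comm]; exact h1) (by decide)
    simpa [show 4 * (2 * e) = 4 * (2 * e) from rfl] using this
  · intro p q
    obtain ⟨b, e, h2, h1, h3, h4⟩ := lead5 (cd p (q + 1)) (by rw [n5_cd]; omega)
    rw [n3_cd] at h3
    rw [n5_cd] at h4
    have h5 : cd p q = b + e := code_inj _ _ (by rw [n3_cd]; omega) (by rw [n5_cd]; omega)
    unfold ex
    rw [h2, h5, show 2 * (b + e) + 1 = 2 * e + 1 + 2 * b by ring,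
      coeff5 hv hv0 hv1 hv2 hv3 hv4 hv5 _ (2 * e) (2 * b) (by ring), choose_two, if_pos]
    rw [show 6 * (2 * e) + 5 = 2 * (6 * e + 2) + 1 by ring, show 2 * b = 2 * b + 0 by ring,
      land2 (by norm_num) (by norm_num)]
    exact ⟨by rw [Nat.land_comm]; exact h1, by decide⟩

/-! ### The operators -/

theorem coeff_opOf (u : ℕ → (ZMod 2)[X]) (f : (ZMod 2)[X]) (j : ℕ) :
    (opOf u f).coeff j = ∑ n ∈ f.support, f.coeff n * (u n).coeff j := by
  conv_lhs => rw [← f.sum_monomial_eq, Polynomial.sum, map_sum, finsetSum_coeff]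
  refine Finset.sum_congr rfl fun n _ => ?_
  rw [show monomial n (f.coeff n) = f.coeff n • (X ^ n : (ZMod 2)[X]) by
    rw [smul_eq_C_mul, C_mul_X_pow_eq_monomial], map_smul, coeff_smul, opOf_X_pow, smul_eq_mul]

section Ops

variable {u v : ℕ → (ZMod 2)[X]}

/-- All exponents have weight at most `w`. -/
def Le (w : ℕ) (f : (ZMod 2)[X]) : Prop := ∀ n ∈ f.support, wt n ≤ w

theorem ex_supp {u : ℕ → (ZMod 2)[X]} {f : (ZMod 2)[X]} {j : ℕ} (h : (opOf u f).coeff j ≠ 0) :
    ∃ n ∈ f.support, (u n).coeff j ≠ 0 := by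
  rw [coeff_opOf] at h
  obtain ⟨n, hn, h1⟩ := Finset.exists_ne_zero_of_sum_ne_zero h
  exact ⟨n, hn, right_ne_zero_of_mul h1⟩

theorem odd_u (F : Fam u v) {f : (ZMod 2)[X]} (hf : IsOddP f) : IsOddP (opOf u f) := by
  intro j hj
  obtain ⟨n, hn, h1⟩ := ex_supp (mem_support_iff.1 hj)
  exact F.u_odd n (hf n hn) j h1

theorem odd_v (F : Fam u v) {f : (ZMod 2)[X]} (hf : IsOddP f) : IsOddP (opOf v f) := by
  intro j hj
  obtain ⟨n, hn, h1⟩ := ex_supp (mem_support_iff.1 hj)
  exact F.v_odd n (hf n hn) j h1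

theorem le_u (F : Fam u v) {f : (ZMod 2)[X]} (hf : IsOddP f) {w : ℕ} (hw : Le w f) :
    Le (w - 2) (opOf u f) := by
  intro j hj
  obtain ⟨n, hn, h1⟩ := ex_supp (mem_support_iff.1 hj)
  have h2 := F.u_drop n (hf n hn) j h1
  have h3 := hw n hn
  unfold wt at *
  omega

theorem le_v (F : Fam u v) {f : (ZMod 2)[X]} (hf : IsOddP f) {w : ℕ} (hw : Le w f) :
    Le (w - 3) (opOf v f) := by
  intro j hj
  obtain ⟨n, hn, h1⟩ := ex_supp (mem_support_iff.1 hj)
  have h2 := F.v_drop n (hf n hn) j h1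
  have h3 := hw n hn
  unfold wt at *
  omega

theorem top_u (F : Fam u v) {f : (ZMod 2)[X]} (hf : IsOddP f) {w : ℕ} (hw : Le w f) {p q : ℕ}
    (h : w ≤ 2 * (p + 1) + 3 * q) : (opOf u f).coeff (ex p q) = f.coeff (ex (p + 1) q) := by
  rw [coeff_opOf]
  have key : ∀ n ∈ f.support, n ≠ ex (p + 1) q → f.coeff n * (u n).coeff (ex p q) = 0 := by
    intro n hn hne
    by_contra hc
    have h2 := F.u_drop n (hf n hn) _ (right_ne_zero_of_mul hc)
    have h3 := hw n hn
    rw [wt_ex, ex_half, n3_cd, n5_cd] at h2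
    rcases h2 with h2 | ⟨h2, h4⟩
    · omega
    · apply hne
      rw [← ex_code (hf n hn), h2, h4]
  by_cases hm : ex (p + 1) q ∈ f.support
  · rw [Finset.sum_eq_single_of_mem _ hm key, F.u_lead, mul_one]
  · rw [notMem_support_iff.1 hm]
    exact Finset.sum_eq_zero fun n hn => key n hn (fun h => hm (h ▸ hn))

theorem top_v (F : Fam u v) {f : (ZMod 2)[X]} (hf : IsOddP f) {w : ℕ} (hw : Le w f) {p q : ℕ}
    (h : w ≤ 2 * p + 3 * (q + 1)) : (opOf v f).coeff (ex p q) = f.coeff (ex p (q + 1)) := by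
  rw [coeff_opOf]
  have key : ∀ n ∈ f.support, n ≠ ex p (q + 1) → f.coeff n * (v n).coeff (ex p q) = 0 := by
    intro n hn hne
    by_contra hc
    have h2 := F.v_drop n (hf n hn) _ (right_ne_zero_of_mul hc)
    have h3 := hw n hn
    rw [wt_ex, ex_half, n3_cd, n5_cd] at h2
    rcases h2 with h2 | ⟨h2, h4⟩
    · omega
    · apply hne
      rw [← ex_code (hf n hn), h2, h4]
  by_cases hm : ex p (q + 1) ∈ f.support
  · rw [Finset.sum_eq_single_of_mem _ hm key, F.v_lead, mul_one]
  · rw [notMem_support_iff.1 hm]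
    exact Finset.sum_eq_zero fun n hn => key n hn (fun h => hm (h ▸ hn))

theorem top_v_pow (F : Fam u v) (j : ℕ) : ∀ {f : (ZMod 2)[X]}, IsOddP f → ∀ {w : ℕ}, Le w f →
    IsOddP ((opOf v ^ j) f) ∧ Le (w - 3 * j) ((opOf v ^ j) f) ∧
    ∀ p q, w ≤ 2 * p + 3 * (q + j) → ((opOf v ^ j) f).coeff (ex p q) = f.coeff (ex p (q + j)) := by
  induction j with
  | zero => intro f hf w hw; exact ⟨hf, hw, fun p q _ => rfl⟩
  | succ j ih =>
    intro f hf w hw
    obtain ⟨h1, h2, h3⟩ := ih (odd_v F hf) (le_v F hf hw)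
    have e : (opOf v ^ (j + 1)) f = (opOf v ^ j) (opOf v f) := by
      rw [pow_succ, Module.End.mul_apply]
    rw [e]
    refine ⟨h1, ?_, fun p q h => ?_⟩
    · rw [show w - 3 * (j + 1) = w - 3 - 3 * j by omega]; exact h2
    · rw [h3 p q (by omega), top_v F hf hw (by omega)]
      rfl

theorem top_u_pow (F : Fam u v) (i : ℕ) : ∀ {f : (ZMod 2)[X]}, IsOddP f → ∀ {w : ℕ}, Le w f →
    IsOddP ((opOf u ^ i) f) ∧ Le (w - 2 * i) ((opOf u ^ i) f) ∧
    ∀ p q, w ≤ 2 * (p + i) + 3 * q → ((opOf u ^ i) f).coeff (ex p q) = f.coeff (ex (p + i) q) := by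
  induction i with
  | zero => intro f hf w hw; exact ⟨hf, hw, fun p q _ => rfl⟩
  | succ i ih =>
    intro f hf w hw
    obtain ⟨h1, h2, h3⟩ := ih (odd_u F hf) (le_u F hf hw)
    have e : (opOf u ^ (i + 1)) f = (opOf u ^ i) (opOf u f) := by
      rw [pow_succ, Module.End.mul_apply]
    rw [e]
    refine ⟨h1, ?_, fun p q h => ?_⟩
    · rw [show w - 2 * (i + 1) = w - 2 - 2 * i by omega]; exact h2
    · rw [h3 p q (by omega), top_u F hf hw (by omega)]
      rfl

theorem odd_pow (F : Fam u v) (i j : ℕ) {f : (ZMod 2)[X]} (hf : IsOddP f) :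
    IsOddP ((opOf u ^ i * opOf v ^ j) f) := by
  rw [Module.End.mul_apply]
  have hw : Le (f.support.sup wt) f := fun n hn => Finset.le_sup hn
  obtain ⟨h1, h2, -⟩ := top_v_pow F j hf hw
  exact (top_u_pow F i h1 h2).1

/-- **The sharp form.** -/
theorem top_pow (F : Fam u v) {f : (ZMod 2)[X]} (hf : IsOddP f) {w : ℕ} (hw : Le w f) (i j : ℕ)
    (h : w ≤ 2 * i + 3 * j) : ((opOf u ^ i * opOf v ^ j) f).coeff 1 = f.coeff (ex i j) := by
  rw [Module.End.mul_apply, ← ex_zero]
  obtain ⟨h1, h2, h3⟩ := top_v_pow F j hf hw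
  obtain ⟨-, -, h4⟩ := top_u_pow F i h1 h2
  rw [h4 0 0 (by omega), h3 (0 + i) 0 (by omega), Nat.zero_add, Nat.zero_add]

/-- **Cogeneration.** -/
theorem cogen (F : Fam u v) {f : (ZMod 2)[X]} (hf : IsOddP f)
    (h : ∀ i j, ((opOf u ^ i * opOf v ^ j) f).coeff 1 = 0) : f = 0 := by
  by_contra hne
  obtain ⟨n, hn, hmax⟩ := Finset.exists_max_image f.support wt
    (Finset.nonempty_iff_ne_empty.2 (fun h => hne (support_eq_empty.1 h)))
  have h1 := top_pow F hf (w := wt n) (fun m hm => hmax m hm) (n3 (n / 2)) (n5 (n / 2)) le_rfl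
  rw [h, ex_code (hf n hn)] at h1
  exact mem_support_iff.1 hn h1.symm

end Ops

end Vale.Agent.P022.H967.NS
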