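import Vale.Agent.P022.H967.NS2
import Vale.Agent.P022.H30.Near

/-!
# The commutant of the two Hecke operators
-/

namespace Vale.Agent.P022.H967.NS

open Polynomial Vale.Agent.P022.H30

/-! ### Abstract form -/

section Abstract

variable {k : Type*} [Field k] {M : Type*} [AddCommGroup M] [Module k M] {S T : Module.End k M}

theorem nil_shift (hST : Commute S T) {f : M} {N : ℕ} (hN : Nil S T f N) (i j : ℕ) :
    Nil S T ((S ^ i * T ^ j) f) N := by
  intro p q hpq
  rw [← Module.End.mul_apply]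
  have h3 : Commute (T ^ q) (S ^ i) := hST.symm.pow_pow q i
  have e : S ^ p * T ^ q * (S ^ i * T ^ j) = S ^ (p + i) * T ^ (q + j) := by
    calc S ^ p * T ^ q * (S ^ i * T ^ j) = S ^ p * (T ^ q * S ^ i) * T ^ j := by
          simp only [mul_assoc]
      _ = S ^ p * (S ^ i * T ^ q) * T ^ j := by rw [h3.eq]
      _ = S ^ (p + i) * T ^ (q + j) := by rw [pow_add, pow_add]; simp only [mul_assoc]
  rw [e]
  exact hN _ _ (by omega)

theorem sum_delta (N : ℕ) (i j : ℕ) (A : ℕ → ℕ → k) :
    ∑ p ∈ Finset.range N, ∑ q ∈ Finset.range N, A p q * (if i = p ∧ j = q then 1 else 0) =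
      if i < N ∧ j < N then A i j else 0 := by
  by_cases hi : i < N
  · rw [Finset.sum_eq_single_of_mem i (Finset.mem_range.2 hi)]
    · by_cases hj : j < N
      · rw [Finset.sum_eq_single_of_mem j (Finset.mem_range.2 hj), if_pos ⟨rfl, rfl⟩,
          if_pos ⟨hi, hj⟩, mul_one]
        intro q _ hq
        rw [if_neg (fun h => hq h.2.symm), mul_zero]
      · rw [if_neg (fun h => hj h.2)]
        refine Finset.sum_eq_zero fun q hq => ?_
        rw [if_neg (fun h : i = i ∧ j = q => hj (h.2 ▸ Finset.mem_range.1 hq)), mul_zero]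
    · intro p _ hp
      refine Finset.sum_eq_zero fun q _ => ?_
      rw [if_neg (fun h => hp h.1.symm), mul_zero]
  · rw [if_neg (fun h => hi h.1)]
    refine Finset.sum_eq_zero fun p hp => Finset.sum_eq_zero fun q _ => ?_
    rw [if_neg (fun h : i = p ∧ _ => hi (h.1 ▸ Finset.mem_range.1 hp)), mul_zero]

/-- **The commutant.** -/
theorem commutant_abs (hST : Commute S T) (a : M →ₗ[k] k)
    (ha : ∀ f, (∀ i j, a ((S ^ i * T ^ j) f) = 0) → f = 0)
    (hd : ∀ p q, ∃ f, ∀ i j, a ((S ^ i * T ^ j) f) = if i = p ∧ j = q then 1 else 0)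
    {U : Module.End k M} (hUS : Commute U S) (hUT : Commute U T) :
    ∃ c : ℕ → ℕ → k, ∀ f N, Nil S T f N →
      U f = ∑ i ∈ Finset.range N, ∑ j ∈ Finset.range N, c i j • (S ^ i * T ^ j) f := by
  choose e he using hd
  have hf : ∀ f N, Nil S T f N → f = ∑ p ∈ Finset.range N, ∑ q ∈ Finset.range N,
      a ((S ^ p * T ^ q) f) • e p q := by
    intro f N hN
    rw [← sub_eq_zero]
    apply ha
    intro i j
    rw [map_sub, map_sub, map_sum, map_sum]
    have h1 : ∀ p, a ((S ^ i * T ^ j) (∑ q ∈ Finset.range N, a ((S ^ p * T ^ q) f) • e p q)) =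
        ∑ q ∈ Finset.range N, a ((S ^ p * T ^ q) f) * (if i = p ∧ j = q then 1 else 0) := by
      intro p
      rw [map_sum, map_sum]
      refine Finset.sum_congr rfl fun q _ => ?_
      rw [map_smul, map_smul, he, smul_eq_mul]
    rw [Finset.sum_congr rfl fun p _ => h1 p, sum_delta]
    split_ifs with h
    · exact sub_self _
    · rw [hN i j (by omega), map_zero, sub_zero]
  refine ⟨fun p q => a (U (e p q)), fun f N hN => ?_⟩
  have hb : ∀ g, Nil S T g N → a (U g) = ∑ p ∈ Finset.range N, ∑ q ∈ Finset.range N,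
      a ((S ^ p * T ^ q) g) * a (U (e p q)) := by
    intro g hg
    conv_lhs => rw [hf g N hg]
    rw [map_sum, map_sum]
    refine Finset.sum_congr rfl fun p _ => ?_
    rw [map_sum, map_sum]
    refine Finset.sum_congr rfl fun q _ => ?_
    rw [map_smul, map_smul, smul_eq_mul]
  rw [← sub_eq_zero]
  apply ha
  intro i j
  have hc : Commute U (S ^ i * T ^ j) := (hUS.pow_right i).mul_right (hUT.pow_right j)
  have e1 : (S ^ i * T ^ j) (U f) = U ((S ^ i * T ^ j) f) := by
    rw [← Module.End.mul_apply, ← hc.eq, Module.End.mul_apply]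
  rw [map_sub, map_sub, e1, hb _ (nil_shift hST hN i j), map_sum, map_sum, sub_eq_zero]
  refine Finset.sum_congr rfl fun p _ => ?_
  rw [map_sum, map_sum]
  refine Finset.sum_congr rfl fun q _ => ?_
  rw [map_smul, map_smul, smul_eq_mul, mul_comm]
  congr 2
  have h4 : Commute (S ^ p * T ^ q) (S ^ i * T ^ j) :=
    (((Commute.refl S).pow_pow p i).mul_right (hST.pow_pow p j)).mul_left
      ((hST.symm.pow_pow q i).mul_right ((Commute.refl T).pow_pow q j))
  rw [← Module.End.mul_apply, ← Module.End.mul_apply, h4.eq]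

end Abstract

/-! ### The dual basis -/

theorem ex_inj {p q p' q' : ℕ} (h : ex p q = ex p' q') : p = p' ∧ q = q' := by
  have h1 : cd p q = cd p' q' := by rw [← ex_half, ← ex_half, h]
  exact ⟨by rw [← n3_cd p q, h1, n3_cd], by rw [← n5_cd p q, h1, n5_cd]⟩

theorem odd_X_pow {n : ℕ} (hn : n % 2 = 1) : IsOddP (X ^ n) := by
  intro m hm
  have h := mem_support_iff.1 hm
  rw [coeff_X_pow] at h
  split_ifs at h with h1
  · rw [h1]; exact hn
  · exact absurd rfl h

theorem odd_zero : IsOddP 0 := fun m hm => by simp at hm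

theorem odd_add {f g : (ZMod 2)[X]} (hf : IsOddP f) (hg : IsOddP g) : IsOddP (f + g) := by
  intro m hm
  rcases Finset.mem_union.1 (support_add hm) with h | h
  · exact hf m h
  · exact hg m h

theorem odd_smul (c : ZMod 2) {f : (ZMod 2)[X]} (hf : IsOddP f) : IsOddP (c • f) :=
  fun m hm => hf m (support_smul c f hm)

theorem odd_sub {f g : (ZMod 2)[X]} (hf : IsOddP f) (hg : IsOddP g) : IsOddP (f - g) := by
  rw [sub_eq_add_neg, ← neg_one_smul (ZMod 2) g]
  exact odd_add hf (odd_smul _ hg)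

theorem odd_sum {ι : Type*} (s : Finset ι) (g : ι → (ZMod 2)[X]) (h : ∀ i ∈ s, IsOddP (g i)) :
    IsOddP (∑ i ∈ s, g i) := by
  classical
  induction s using Finset.induction_on with
  | empty => rw [Finset.sum_empty]; exact odd_zero
  | insert a s ha ih =>
    rw [Finset.sum_insert ha]
    exact odd_add (h a (Finset.mem_insert_self _ _)) (ih fun i hi => h i (Finset.mem_insert_of_mem hi))

theorem dual {u v : ℕ → (ZMod 2)[X]} (F : Fam u v) (w : ℕ) : ∀ p q, 2 * p + 3 * q = w →
    ∃ f, IsOddP f ∧ ∀ i j, ((opOf u ^ i * opOf v ^ j) f).coeff 1 =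
      if i = p ∧ j = q then 1 else 0 := by
  induction w using Nat.strong_induction_on with
  | _ w ih =>
    intro p q hpq
    have h1 : ∀ i j, ∃ f, IsOddP f ∧ (2 * i + 3 * j < w → ∀ i' j',
        ((opOf u ^ i' * opOf v ^ j') f).coeff 1 = if i' = i ∧ j' = j then 1 else 0) := by
      intro i j
      by_cases h : 2 * i + 3 * j < w
      · obtain ⟨f, hf, h2⟩ := ih _ h i j rfl
        exact ⟨f, hf, fun _ => h2⟩
      · exact ⟨0, odd_zero, fun h' => absurd h' h⟩
    choose e he1 he2 using h1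
    set A : ℕ → ℕ → ZMod 2 := fun i j => if 2 * i + 3 * j < w then
      ((opOf u ^ i * opOf v ^ j) (X ^ (ex p q))).coeff 1 else 0 with hA
    refine ⟨X ^ (ex p q) - ∑ i ∈ Finset.range w, ∑ j ∈ Finset.range w, A i j • e i j,
      odd_sub (odd_X_pow (ex_odd p q)) (odd_sum _ _ fun i _ => odd_sum _ _ fun j _ =>
        odd_smul _ (he1 i j)), ?_⟩
    intro i' j'
    rw [map_sub, coeff_sub, map_sum, finsetSum_coeff]
    have h2 : ∀ i, ((opOf u ^ i' * opOf v ^ j') (∑ j ∈ Finset.range w, A i j • e i j)).coeff 1 =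
        ∑ j ∈ Finset.range w, A i j * (if i' = i ∧ j' = j then 1 else 0) := by
      intro i
      rw [map_sum, finsetSum_coeff]
      refine Finset.sum_congr rfl fun j _ => ?_
      rw [map_smul, coeff_smul, smul_eq_mul]
      by_cases h : 2 * i + 3 * j < w
      · rw [he2 i j h]
      · have h3 : A i j = 0 := by rw [hA]; exact if_neg h
        rw [h3, zero_mul, zero_mul]
    rw [Finset.sum_congr rfl fun i _ => h2 i, sum_delta]
    by_cases h : 2 * i' + 3 * j' < w
    · rw [if_pos ⟨by omega, by omega⟩, hA]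
      simp only
      rw [if_pos h, sub_self, if_neg (by rintro ⟨rfl, rfl⟩; omega)]
    · have h3 : (if i' < w ∧ j' < w then A i' j' else 0) = 0 := by
        split_ifs
        · rw [hA]; exact if_neg h
        · rfl
      rw [h3, sub_zero]
      have h4 := top_pow F (odd_X_pow (ex_odd p q)) (w := w) (fun n hn => by
        have h5 := mem_support_iff.1 hn
        rw [coeff_X_pow] at h5
        split_ifs at h5 with h6
        · rw [h6, wt_ex, hpq]
        · exact absurd rfl h5) i' j' (by omega)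
      rw [h4, coeff_X_pow]
      by_cases h5 : i' = p ∧ j' = q
      · rw [if_pos h5, if_pos (by rw [h5.1, h5.2])]
      · rw [if_neg h5, if_neg (fun h6 => h5 (ex_inj h6))]

/-! ### The span of the odd powers of `D` -/

theorem coeff_one_D_pow {n : ℕ} (hn : n % 2 = 1) :
    PowerSeries.coeff 1 (D ^ n) = if n = 1 then 1 else 0 := by
  by_cases h : n = 1
  · rw [h, pow_one, coeff_one_D, if_pos rfl]
  · obtain ⟨E, hE, -⟩ := D_eq
    rw [if_neg h, hE, mul_pow, PowerSeries.coeff_X_pow_mul', if_neg (by omega)]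

theorem coeff_one_ev {f : (ZMod 2)[X]} (hf : IsOddP f) :
    PowerSeries.coeff 1 (ev f) = f.coeff 1 := by
  have h : ev f = ∑ n ∈ f.support, f.coeff n • D ^ n := by
    unfold ev
    rw [aeval_eq_sum_range]
    refine (Finset.sum_subset ?_ ?_).symm
    · intro n hn
      rw [Finset.mem_range]
      have := le_natDegree_of_mem_supp n hn
      omega
    · intro n _ hn
      rw [notMem_support_iff.1 hn, zero_smul]
  rw [h, map_sum]
  have h2 : ∀ n ∈ f.support, PowerSeries.coeff 1 (f.coeff n • D ^ n) =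
      if n = 1 then f.coeff 1 else 0 := by
    intro n hn
    rw [PowerSeries.coeff_smul, coeff_one_D_pow (hf n hn)]
    split_ifs with h1
    · rw [h1, smul_eq_mul, mul_one]
    · rw [smul_zero]
  rw [Finset.sum_congr rfl h2, Finset.sum_ite_eq' f.support 1]
  split_ifs with h1
  · rfl
  · exact (notMem_support_iff.1 h1).symm

section Modd

variable {u v : ℕ → (ZMod 2)[X]} {S T : Module.End (ZMod 2) Modd}

theorem pow_ev (hu : ∀ n, ev (u n) = hec 3 (D ^ n)) (hv : ∀ n, ev (v n) = hec 5 (D ^ n))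
    (hS : ∀ f, ((S f : Modd) : PowerSeries (ZMod 2)) = hecL 3 (f : PowerSeries (ZMod 2)))
    (hT : ∀ f, ((T f : Modd) : PowerSeries (ZMod 2)) = hecL 5 (f : PowerSeries (ZMod 2)))
    (i j : ℕ) (f : (ZMod 2)[X]) (hf : IsOddP f) :
    (((S ^ i * T ^ j) ⟨ev f, ev_mem_Modd hf⟩ : Modd) : PowerSeries (ZMod 2)) =
      ev ((opOf u ^ i * opOf v ^ j) f) := by
  have e1 : ∀ {l : ℕ} {R : Module.End (ZMod 2) Modd}
      (_ : ∀ f, ((R f : Modd) : PowerSeries (ZMod 2)) = hecL l (f : PowerSeries (ZMod 2)))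
      (j : ℕ) (f : Modd), (((R ^ j) f : Modd) : PowerSeries (ZMod 2)) =
      (hecL l ^ j) (f : PowerSeries (ZMod 2)) := by
    intro l R hR j
    induction j with
    | zero => intro f; simp
    | succ j ih =>
      intro f
      rw [pow_succ', pow_succ', Module.End.mul_apply, Module.End.mul_apply, ← ih, hR]
  rw [Module.End.mul_apply, e1 hS, e1 hT, ev_pow_pow hu hv, Module.End.mul_apply]

theorem a1_pow (hu : ∀ n, ev (u n) = hec 3 (D ^ n)) (hv : ∀ n, ev (v n) = hec 5 (D ^ n))
    (hS : ∀ f, ((S f : Modd) : PowerSeries (ZMod 2)) = hecL 3 (f : PowerSeries (ZMod 2)))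
    (hT : ∀ f, ((T f : Modd) : PowerSeries (ZMod 2)) = hecL 5 (f : PowerSeries (ZMod 2)))
    (F : Fam u v) (i j : ℕ) (f : (ZMod 2)[X]) (hf : IsOddP f) :
    a1 ((S ^ i * T ^ j) ⟨ev f, ev_mem_Modd hf⟩) = ((opOf u ^ i * opOf v ^ j) f).coeff 1 := by
  rw [← coeff_one_ev (odd_pow F i j hf), ← pow_ev hu hv hS hT i j f hf]
  rfl

/-- **(NSa)** on `Modd`. -/
theorem ha_Modd (hu : ∀ n, ev (u n) = hec 3 (D ^ n)) (hv : ∀ n, ev (v n) = hec 5 (D ^ n))
    (hS : ∀ f, ((S f : Modd) : PowerSeries (ZMod 2)) = hecL 3 (f : PowerSeries (ZMod 2)))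
    (hT : ∀ f, ((T f : Modd) : PowerSeries (ZMod 2)) = hecL 5 (f : PowerSeries (ZMod 2)))
    (F : Fam u v) (f : Modd) (h : ∀ i j, a1 ((S ^ i * T ^ j) f) = 0) : f = 0 := by
  obtain ⟨f, hf⟩ := f
  obtain ⟨g, hg, rfl⟩ := exists_ev hf
  have h1 : g = 0 := cogen F hg fun i j => by
    rw [← a1_pow hu hv hS hT F i j g hg]
    exact h i j
  apply Subtype.ext
  simp only [h1, map_zero]
  rfl

/-- **(NSb)** on `Modd`: the commutant of the two operators. -/
theorem commutant_Modd (hu : ∀ n, ev (u n) = hec 3 (D ^ n)) (hv : ∀ n, ev (v n) = hec 5 (D ^ n))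
    (hS : ∀ f, ((S f : Modd) : PowerSeries (ZMod 2)) = hecL 3 (f : PowerSeries (ZMod 2)))
    (hT : ∀ f, ((T f : Modd) : PowerSeries (ZMod 2)) = hecL 5 (f : PowerSeries (ZMod 2)))
    (F : Fam u v) {U : Module.End (ZMod 2) Modd} (hUS : Commute U S) (hUT : Commute U T) :
    ∃ c : ℕ → ℕ → ZMod 2, ∀ f N, Nil S T f N →
      U f = ∑ i ∈ Finset.range N, ∑ j ∈ Finset.range N, c i j • (S ^ i * T ^ j) f := by
  have hST : Commute S T := by
    refine LinearMap.ext fun f => Subtype.ext ?_
    rw [Module.End.mul_apply, Module.End.mul_apply, hS, hT, hT, hS, hecL_apply, hecL_apply,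
      hecL_apply, hecL_apply, hec_comm (by norm_num) (by norm_num) (by norm_num)]
  refine commutant_abs hST a1 (ha_Modd hu hv hS hT F) ?_ hUS hUT
  intro p q
  obtain ⟨f, hf, h⟩ := dual F _ p q rfl
  exact ⟨⟨ev f, ev_mem_Modd hf⟩, fun i j => by rw [a1_pow hu hv hS hT F i j f hf, h]⟩

end Modd

end Vale.Agent.P022.H967.NS
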