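import Mathlib

/-!
P022, block [E] (helper967): primes `q` modulo which a given number has order `ℓ ^ A`.
-/

set_option linter.all false

namespace Vale.Agent.P022.H967

open Finset

/-- a prime factor `q ≠ ℓ` of `1 + y + .. + y ^ (ℓ - 1)`, `y = p ^ (ℓ ^ B)`, `1 ≤ B` -/
lemma exists_factor {ℓ : ℕ} (hℓ : ℓ.Prime) {p : ℕ} (hp : 2 ≤ p) {B : ℕ} (hB : 1 ≤ B) :
    ∃ q : ℕ, q.Prime ∧ q ≠ ℓ ∧ q ∣ ∑ i ∈ range ℓ, (p ^ ℓ ^ B) ^ i := by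
  by_contra hcon
  push Not at hcon
  set y := p ^ ℓ ^ B with hy
  set Φ := ∑ i ∈ range ℓ, y ^ i with hΦ
  have hℓ2 : 2 ≤ ℓ := hℓ.two_le
  have hy2 : 2 ≤ y := by
    calc 2 ≤ p := hp
      _ = p ^ 1 := (pow_one p).symm
      _ ≤ y := Nat.pow_le_pow_right (by omega) (Nat.one_le_pow _ _ hℓ.pos)
  -- `Φ` is large
  have hbig : ℓ < Φ := by
    have h1 : ∑ i ∈ range ℓ, 1 < ∑ i ∈ range ℓ, y ^ i := by
      refine Finset.sum_lt_sum (fun i _ => Nat.one_le_pow _ _ (by omega)) ⟨1, ?_, ?_⟩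
      · rw [mem_range]; omega
      · rw [pow_one]; omega
    simpa using h1
  -- `Φ` is a power of `ℓ`
  have hΦ0 : Φ ≠ 0 := by omega
  have hpow : ∃ j, Φ = ℓ ^ j := by
    refine ⟨Φ.primeFactorsList.length, ?_⟩
    apply Nat.eq_prime_pow_of_unique_prime_dvd hΦ0
    intro q hq hqd
    by_contra h
    exact hcon q hq h hqd
  obtain ⟨j, hj⟩ := hpow
  have hj2 : 2 ≤ j := by
    by_contra h
    have : j = 0 ∨ j = 1 := by omega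
    rcases this with h | h
    · rw [h, pow_zero] at hj; omega
    · rw [h, pow_one] at hj; omega
  have hlΦ : ℓ ^ 2 ∣ Φ := hj ▸ pow_dvd_pow ℓ hj2
  have hlΦ1 : ℓ ∣ Φ := (dvd_pow_self ℓ two_ne_zero).trans hlΦ
  -- `(y - 1) Φ = y ^ ℓ - 1`
  have hgeo : (∑ i ∈ range ℓ, (y : ℤ) ^ i) * ((y : ℤ) - 1) = (y : ℤ) ^ ℓ - 1 := geom_sum_mul _ _
  have hΦz : (Φ : ℤ) = ∑ i ∈ range ℓ, (y : ℤ) ^ i := by rw [hΦ]; push_cast; rfl
  -- `y ≡ 1 mod ℓ`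
  haveI : Fact ℓ.Prime := ⟨hℓ⟩
  have hy1 : ((y : ℕ) : ZMod ℓ) = 1 := by
    have h1 : ((Φ : ℤ) : ZMod ℓ) = 0 := by
      rw [Int.cast_natCast]
      exact (ZMod.natCast_eq_zero_iff _ _).2 hlΦ1
    have h2 : ((y : ZMod ℓ)) ^ ℓ - 1 = 0 := by
      have := congrArg (fun z : ℤ => (z : ZMod ℓ)) hgeo
      push_cast at this
      rw [← this]
      have h3 : ∑ i ∈ range ℓ, (y : ZMod ℓ) ^ i = ((Φ : ℤ) : ZMod ℓ) := by
        rw [hΦz]; push_cast; rfl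
      rw [h3, h1, zero_mul]
    rw [ZMod.pow_card] at h2
    exact sub_eq_zero.1 h2
  -- `p ≡ 1 mod ℓ`
  have hp1 : ((p : ℕ) : ZMod ℓ) = 1 := by
    have : ((y : ℕ) : ZMod ℓ) = (p : ZMod ℓ) := by
      rw [hy, Nat.cast_pow, ZMod.pow_card_pow]
    rw [← this]; exact hy1
  -- `ℓ ^ 2 ∣ y - 1`
  have hpz : (ℓ : ℤ) ∣ (p : ℤ) - 1 := by
    rw [← ZMod.intCast_zmod_eq_zero_iff_dvd _ ℓ] 
    push_cast
    rw [hp1, sub_self]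
  have hsq : ((ℓ : ℤ) ^ 2) ∣ (y : ℤ) - 1 := by
    have h1 : (ℓ : ℤ) ^ (B + 1) ∣ (p : ℤ) ^ ℓ ^ B - 1 ^ ℓ ^ B := 
      dvd_sub_pow_of_dvd_sub (k := B) hpz
    rw [one_pow] at h1
    have h2 : (ℓ : ℤ) ^ 2 ∣ (ℓ : ℤ) ^ (B + 1) := pow_dvd_pow _ (by omega)
    have h3 : (y : ℤ) = (p : ℤ) ^ ℓ ^ B := by rw [hy]; push_cast; rfl
    rw [h3]
    exact h2.trans h1
  -- `Φ ≡ ℓ mod ℓ ^ 2`
  have hmod : ((ℓ : ℤ) ^ 2) ∣ (Φ : ℤ) - ℓ := by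
    rw [hΦz]
    have h1 : ∑ i ∈ range ℓ, (y : ℤ) ^ i - (ℓ : ℤ) = ∑ i ∈ range ℓ, ((y : ℤ) ^ i - 1 ^ i) := by
      rw [Finset.sum_sub_distrib]; simp
    rw [h1]
    refine Finset.dvd_sum fun i _ => hsq.trans ?_
    exact sub_dvd_pow_sub_pow _ _ _
  have h4 : ((ℓ : ℤ) ^ 2) ∣ (ℓ : ℤ) := by
    have h5 : ((ℓ : ℤ) ^ 2) ∣ (Φ : ℤ) := by exact_mod_cast hlΦ
    have := dvd_sub h5 hmod
    simpa using this
  have h6 : ℓ ^ 2 ∣ ℓ := by exact_mod_cast h4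
  have h7 := Nat.le_of_dvd hℓ.pos h6
  nlinarith

/-- **a prime modulo which `p` has order `ℓ ^ A`** -/
theorem exists_order {ℓ : ℕ} (hℓ : ℓ.Prime) {p : ℕ} (hp : 2 ≤ p) {A : ℕ} (hA : 2 ≤ A) :
    ∃ q : ℕ, q.Prime ∧ orderOf (p : ZMod q) = ℓ ^ A := by
  obtain ⟨B, rfl⟩ : ∃ B, A = B + 1 := ⟨A - 1, by omega⟩
  obtain ⟨q, hq, hne, hd⟩ := exists_factor hℓ hp (B := B) (by omega)
  haveI : Fact q.Prime := ⟨hq⟩
  refine ⟨q, hq, ?_⟩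
  haveI : Fact ℓ.Prime := ⟨hℓ⟩
  set y : ZMod q := (p : ZMod q) ^ ℓ ^ B with hy
  have h0 : ∑ i ∈ range ℓ, y ^ i = 0 := by
    have := (ZMod.natCast_eq_zero_iff _ _).2 hd
    push_cast at this
    rw [hy]; exact this
  have h1 : y ^ ℓ = 1 := by
    have := geom_sum_mul y ℓ
    rw [h0, zero_mul] at this
    exact (sub_eq_zero.1 this.symm)
  have h2 : y ≠ 1 := by
    intro h
    rw [h] at h0
    simp at h0
    have : q ∣ ℓ := (ZMod.natCast_eq_zero_iff _ _).1 h0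
    exact hne ((Nat.prime_dvd_prime_iff_eq hq hℓ).1 this)
  refine orderOf_eq_prime_pow ?_ ?_
  · exact h2
  · rw [pow_succ, pow_mul]; exact h1

end Vale.Agent.P022.H967
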